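import Vale.Agent.P071.Vector

/-!
The key step: in the conformal disc model, an eigenfunction whose gradient vanishes at the
origin has vanishing gradient.
-/

open MeasureTheory Complex Set Metric Filter Topology
open scoped ComplexConjugate ContDiff

namespace Vale.Agent.P071

theorem eq_zero_of_test {U : Set ℂ} (hU : IsOpen U) {F : ℂ → ℝ} (hF : ContinuousOn F U)
    (h : ∀ g : ℂ → ℝ, ContDiff ℝ ∞ g → HasCompactSupport g → tsupport g ⊆ U →
      ∫ z in U, g z * F z = 0) : ∀ z ∈ U, F z = 0 := by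
  have h1 := hU.ae_eq_zero_of_integral_contDiff_smul_eq_zero (μ := volume)
    (hF.locallyIntegrableOn hU.measurableSet) fun g h1 h2 h3 => by
      rw [← h g h1 h2 h3, setIntegral_eq_integral_of_forall_compl_eq_zero]
      · rfl
      · intro z hz
        rw [image_eq_zero_of_notMem_tsupport fun h' => hz (h3 h'), zero_mul]
  exact Measure.eqOn_open_of_ae_eq (μ := volume) ((ae_restrict_iff' hU.measurableSet).2 h1) hU hF
    continuousOn_const

theorem int_dz_van {F : ℂ → ℂ} (hF : ContDiff ℝ ∞ F) :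
    ∫ z in Ds, ((1 - z * conj z) * dz F z - conj z * F z) = 0 :=
  ibp_a (hF.contDiffOn.of_le (by simp)) (fun z _ => ⟨_, hF.hasW z⟩)
    (Bd.of_contDiff (contDiff_dz hF)).hw.l1 (Bd.of_contDiff hF).hw.div

theorem int_dzb_van {F : ℂ → ℂ} (hF : ContDiff ℝ ∞ F) :
    ∫ z in Ds, ((1 - z * conj z) * dzb F z - z * F z) = 0 :=
  ibp_b (hF.contDiffOn.of_le (by simp)) (fun z _ => ⟨_, hF.hasW z⟩)
    (Bd.of_contDiff (contDiff_dzb hF)).hw.l1 (Bd.of_contDiff hF).hw.div

theorem jac {R : ℂ → ℂ} (hR : ContDiff ℝ ∞ R) :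
    ∫ z in Ds, ‖2 * ((1 - z * conj z) * R z) + conj z * ((1 - z * conj z) * dzb R z - z * R z)‖ ^ 2
      = ∫ z in Ds, ‖z * ((1 - z * conj z) * dz R z - conj z * R z) - (1 - z * conj z) * R z‖ ^ 2 := by
  set Q : ℂ → ℂ := fun z => (1 - z * conj z) * R z with hQ
  have hQs : ContDiff ℝ ∞ Q := by rw [hQ]; fun_prop
  have ha := contDiff_dz hQs
  have hb := contDiff_dzb hQs
  have ea : ∀ z, (1 - z * conj z) * dz R z - conj z * R z = dz Q z := fun z =>
    (hasW_van (hR.hasW z)).dz_eq.symm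
  have eb : ∀ z, (1 - z * conj z) * dzb R z - z * R z = dzb Q z := fun z =>
    (hasW_van (hR.hasW z)).dzb_eq.symm
  have hFa : ContDiff ℝ ∞ fun z => R z * (z * conj (Q z) - z * conj z * conj (dz Q z)) := by
    fun_prop
  have hFb : ContDiff ℝ ∞ fun z => R z * (z * conj z * conj (dzb Q z) + 2 * (conj z * conj (Q z))) := by
    fun_prop
  have hZ : ∫ z in Ds, (((1 - z * conj z) *
      dz (fun z => R z * (z * conj (Q z) - z * conj z * conj (dz Q z))) z -
        conj z * (R z * (z * conj (Q z) - z * conj z * conj (dz Q z)))) + ((1 - z * conj z) *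
      dzb (fun z => R z * (z * conj z * conj (dzb Q z) + 2 * (conj z * conj (Q z)))) z -
        z * (R z * (z * conj z * conj (dzb Q z) + 2 * (conj z * conj (Q z)))))) = 0 := by
    rw [integral_add, int_dz_van hFa, int_dzb_van hFb, add_zero]
    · exact (Bd.of_contDiff (by have := contDiff_dz hFa; fun_prop)).hw.l1.2
    · exact (Bd.of_contDiff (by have := contDiff_dzb hFb; fun_prop)).hw.l1.2
  have i1 := (Bd.of_contDiff (F := fun z => 2 * Q z + conj z * dzb Q z) (by fun_prop)).hw.sq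
  have i2 := (Bd.of_contDiff (F := fun z => z * dz Q z - Q z) (by fun_prop)).hw.sq
  have key := (((IL.of i1 1).add (IL.of i2 (-1))).add (IL.ofZ (Bd.of_contDiff (by
    have := contDiff_dz hFa; have := contDiff_dzb hFb; fun_prop)).hw.l1 hZ (-1))).zero fun z _ => by
      have h0 := (HasW.id' z).mul (HasW.conj' z)
      rw [((hR.hasW z).mul (((HasW.id' z).mul (hQs.hasW z).cj).sub
          (h0.mul (ha.hasW z).cj))).dz_eq,
        ((hR.hasW z).mul ((h0.mul (hb.hasW z).cj).add
          (((HasW.conj' z).mul (hQs.hasW z).cj).const_mul 2))).dzb_eq,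
        dzb_dz_comm (hQs.contDiffAt.of_le (by norm_cast))]
      generalize dz (dzb Q) z = w
      rw [← ea z, ← eb z, show Q z = (1 - z * conj z) * R z from rfl]
      apply ofReal_injective
      push_cast
      simp only [nsq, re_eq_add_conj, map_add, map_sub, map_mul, conj_conj,
        conj_ofNat, map_one, map_zero]
      ring
  simp only [ea, eb]
  linarith

/-- the data attached to an eigenfunction with a critical point at the origin -/
structure Dat (μ : ℝ) (p G σ : ℂ → ℂ) (β : ℂ) : Prop where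
  hG : HW G
  hGz : HW fun z => G z / z
  cG : ContDiffOn ℝ 1 G Ds
  hσ : HW σ
  hσz : HW fun z => σ z / z
  cσ : ContDiffOn ℝ 1 σ Ds
  wG : ∀ z ∈ Ds, HasW G (dz G z) (p z * (σ z + β)) z
  wσ : ∀ z ∈ Ds, HasW σ (-(μ / 4) * (G z * conj (p z))) (dzb σ z) z
  N : ∀ a : ℂ → ℂ, ContDiff ℝ ∞ a → (∀ z, conj (a z) = a z) →
    ∫ z in Ds, (G z * dzb a z + p z * (σ z + β) * a z).re = 0
  E : 4 * ∫ z in Ds, ‖σ z + β‖ ^ 2 = μ * ∫ z in Ds, ‖G z‖ ^ 2

namespace Poinc
variable {μ : ℝ} {f p G σ : ℂ → ℂ} {β : ℂ}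

theorem bc_gen (h : Poinc μ f p) (d : Dat μ p G σ β) {x Y b : ℂ → ℂ} (hx : ContDiff ℝ ∞ x)
    (hxr : ∀ z, conj (x z) = x z) (cY : ContDiffOn ℝ 1 Y Ds) (hY : HW Y) (hb : L1 b)
    (wY : ∀ z ∈ Ds, ∃ a, HasW Y a (b z) z) {Y' T : ℂ → ℂ}
    (eY : ∀ z ∈ Ds, Y' z = G z * x z + (1 - z * conj z) * Y z)
    (eT : ∀ z ∈ Ds, T z = p z * (σ z + β) * x z + G z * dzb x z +
      ((1 - z * conj z) * b z - z * Y z)) : BC Y' T := by
  intro s₁ s₂ h₁ h₂ hr
  have hN := d.N (fun z => x z * s₁ z) (hx.mul h₁) fun z => by simp [hxr, hr]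
  have hpσ := h.p_hw.mul (d.hσ.add (Bd.const β).hw)
  set s : ℂ → ℂ := fun z => s₁ z + (1 - z * conj z) * s₂ z with hs
  have hss : ContDiff ℝ ∞ s := by rw [hs]; fun_prop
  have es : ∀ z, dz s z = dz s₁ z + ((1 - z * conj z) * dz s₂ z - conj z * s₂ z) := fun z =>
    ((h₁.hasW z).add (hasW_van (h₂.hasW z))).dz_eq
  have bx := Bd.of_contDiff hx
  have bx' := Bd.of_contDiff (contDiff_dzb hx)
  have b2 := (Bd.of_contDiff h₂).cj
  have b2' := (Bd.of_contDiff (contDiff_dz h₂)).cj
  have bs := (Bd.of_contDiff hss).cj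
  have bs' := (Bd.of_contDiff (contDiff_dz hss)).cj
  have hF : HW fun z => G z * (x z * conj (s₂ z)) + Y z * conj (s z) :=
    (d.hG.mul_bd (bx.mul b2)).add (hY.mul_bd bs)
  have hF' : L1 fun z => p z * (σ z + β) * (x z * conj (s₂ z)) +
      G z * (dzb x z * conj (s₂ z) + x z * conj (dz s₂ z)) +
      (b z * conj (s z) + Y z * conj (dz s z)) :=
    ((hpσ.mul_bd (bx.mul b2)).add (d.hG.mul_bd ((bx'.mul b2).add (bx.mul b2'))).l1).add
      ((hb.mul_bd bs).add (hY.mul_bd bs').l1)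
  have hZ := ibp_b (F := fun z => G z * (x z * conj (s₂ z)) + Y z * conj (s z))
    (by
      have := d.cG
      have := (hx.of_le (show (1 : WithTop ℕ∞) ≤ ∞ by simp)).contDiffOn (s := Ds)
      have := (h₂.of_le (show (1 : WithTop ℕ∞) ≤ ∞ by simp)).contDiffOn (s := Ds)
      have := (hss.of_le (show (1 : WithTop ℕ∞) ≤ ∞ by simp)).contDiffOn (s := Ds)
      fun_prop)
    (fun z hz => by
      obtain ⟨a, ha⟩ := wY z hz
      exact ⟨_, ((d.wG z hz).mul ((hx.hasW z).mul (h₂.hasW z).cj)).add (ha.mul (hss.hasW z).cj)⟩)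
    hF' hF.div
  have iN := ((d.hG.mul_bd (Bd.of_contDiff (contDiff_dzb (hx.mul h₁)))).l1.add
    (hpσ.mul_bd (Bd.of_contDiff (hx.mul h₁)))).re
  have hZi := (hF'.bd_mul (Bd.of_continuous (F := fun z => 1 - z * conj z) (by fun_prop))).sub
    (hF.l1.bd_mul (Bd.of_continuous continuous_id'))
  have key := (IL.of iN 1).add (IL.ofZ hZi hZ 1)
  rw [hN, mul_zero, add_zero] at key
  rw [← key.2]
  refine setIntegral_congr_fun measurableSet_Ds fun z hz => ?_
  rw [one_mul, one_mul, ← add_re, eY z hz, eT z hz, es, ((hx.hasW z).mul (h₁.hasW z)).dzb_eq,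
    dzb_eq_conj_dz (h₁.differentiable (by simp) z) (Eventually.of_forall hr)]
  congr 1
  simp only [hs, map_add, map_sub, map_mul, conj_conj, map_one, hr]
  ring

theorem vec2 (h : Poinc μ f p) {Y Y' S S' : ℂ → ℂ} (hY : HW Y) (hY' : HW Y') (hS : HW S)
    (hS' : HW S') (h1 : BC (fun z => Y z + Y' z) fun z => p z * (S z + S' z))
    (h2 : BC (fun z => I * (Y z - Y' z)) fun z => p z * (I * (S z - S' z))) :
    μ * (∫ z in Ds, ‖Y z‖ ^ 2) + μ * ∫ z in Ds, ‖Y' z‖ ^ 2 ≤
      4 * (∫ z in Ds, ‖S z‖ ^ 2) + 4 * ∫ z in Ds, ‖S' z‖ ^ 2 := by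
  have par : ∀ {A B : ℂ → ℂ}, HW A → HW B → (∫ z in Ds, ‖A z + B z‖ ^ 2) +
      ∫ z in Ds, ‖I * (A z - B z)‖ ^ 2 =
      2 * (∫ z in Ds, ‖A z‖ ^ 2) + 2 * ∫ z in Ds, ‖B z‖ ^ 2 := by
    intro A B hA hB
    have := ((((IL.of (hA.add hB).sq 1).add (IL.of ((hA.sub hB).bd_mul (Bd.const I)).sq 1)).add
      (IL.of hA.sq (-2))).add (IL.of hB.sq (-2))).zero fun z _ => by
        rw [norm_mul, norm_I, one_mul]
        linarith [parallelogram_law_with_norm ℂ (A z) (B z)]
    linarith
  have k1 := h.vector_ineq (hY.add hY') (hS.add hS') h1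
  have k2 := h.vector_ineq ((hY.sub hY').bd_mul (Bd.const I)) ((hS.sub hS').bd_mul (Bd.const I)) h2
  have k3 := par hY hY'
  have k4 := par hS hS'
  have k5 := congrArg (μ * ·) k3
  simp only [mul_add] at k5
  linarith

theorem step1 (h : Poinc μ f p) (d : Dat μ p G σ β) {ψ R : ℂ → ℂ} (hψ : ContDiff ℝ ∞ ψ)
    (hR : ContDiff ℝ ∞ R) :
    0 ≤ (∫ z in Ds, ‖(1 - z * conj z) * (σ z / conj z) -
        ((1 - z * conj z) * dzb ψ z - z * ψ z)‖ ^ 2) +
      (∫ z in Ds, ‖2 * ((1 - z * conj z) * R z) +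
        conj z * ((1 - z * conj z) * dzb R z - z * R z)‖ ^ 2) +
      2 * ∫ z in Ds, ((1 - z * conj z) * (σ z / conj z) * conj (R z)).re := by
  have bz : Bd fun z => z := Bd.of_continuous continuous_id'
  have bzb := bz.cj
  have bw : Bd fun z => 1 - z * conj z := Bd.of_continuous (by fun_prop)
  have bψ := Bd.of_contDiff hψ
  have bψ' := Bd.of_contDiff (contDiff_dzb hψ)
  have bR := Bd.of_contDiff hR
  have bR' := Bd.of_contDiff (contDiff_dzb hR)
  have bβ := Bd.const β
  have cψ := (hψ.of_le (show (1 : WithTop ℕ∞) ≤ ∞ by simp)).contDiffOn (s := Ds)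
  have cR := (hR.of_le (show (1 : WithTop ℕ∞) ≤ ∞ by simp)).contDiffOn (s := Ds)
  have cp := (h.contDiffOn_p (n := 1)).mono Ds_subset
  have cG := d.cG
  have cσ := d.cσ
  have ci : ContDiffOn ℝ 1 (fun z : ℂ => z⁻¹) Ds := contDiffOn_id.inv fun z hz => hz.1
  have wi : ∀ z ∈ Ds, HasW (fun z : ℂ => z⁻¹) (-(z ^ 2)⁻¹) 0 z := fun z hz =>
    ((HasW.id' z).inv hz.1).congr (by ring) (by ring)
  have hσb : HW fun z => σ z / conj z := (d.hσz.mul_bd Bd.quot.cj).congr fun z hz => by
    have := hz.1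
    have := Ds_conj_ne hz
    simp only [map_div₀, conj_conj]; field_simp
  -- the two pieces
  set U : ℂ → ℂ := fun z => p z * (β + ψ z) with hU
  set V : ℂ → ℂ := fun z => G z * z⁻¹ + p z * (conj z * z⁻¹ * (conj z * R z - β)) with hV
  set bU : ℂ → ℂ := fun z => p z * dzb ψ z with hbU
  set bV : ℂ → ℂ := fun z => p z * (σ z + β) * z⁻¹ + p z * (z⁻¹ * (conj z * R z - β) +
    conj z * z⁻¹ * (R z + conj z * dzb R z)) with hbV
  have hUw : HW U := h.p_hw.mul_bd (bβ.add bψ)
  have hX : HW fun z => p z * (conj z / z * (conj z * R z - β)) :=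
    h.p_hw.mul_bd (Bd.quot.mul ((bzb.mul bR).sub bβ))
  have hVw : HW V := (d.hGz.add hX).congr fun z _ => by simp only [hV]; ring
  have hbUw : L1 bU := (h.p_hw.mul_bd bψ').l1
  have hbVw : L1 bV := (((h.p_hw.mul_div (d.hσ.add bβ.hw)).add
    (h.p_hw.div.mul_bd ((bzb.mul bR).sub bβ))).add
    (h.p_hw.mul_bd (Bd.quot.mul (bR.add (bzb.mul bR')))).l1).congr fun z _ => by
      simp only [hbV]; ring
  have cU : ContDiffOn ℝ 1 U Ds := by rw [hU]; fun_prop
  have cV : ContDiffOn ℝ 1 V Ds := by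
    rw [hV]
    exact (cG.mul ci).add (cp.mul ((contDiff_cj.contDiffOn.mul ci).mul (by fun_prop)))
  have wU : ∀ z ∈ Ds, HasW U (dz U z) (bU z) z := fun z hz => by
    have := (h.hasW_p (Ds_subset hz)).mul ((HasW.const β z).add (hψ.hasW z))
    exact this.congr this.dz_eq.symm (by simp only [hbU]; ring)
  have wV : ∀ z ∈ Ds, HasW V (dz V z) (bV z) z := fun z hz => by
    have := ((d.wG z hz).mul (wi z hz)).add ((h.hasW_p (Ds_subset hz)).mul
      (((HasW.conj' z).mul (wi z hz)).mul (((HasW.conj' z).mul (hR.hasW z)).sub (HasW.const β z))))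
    exact this.congr this.dz_eq.symm (by simp only [hbV]; ring)
  have bφ : Bd fun z => 2 * ((1 - z * conj z) * R z) +
      conj z * ((1 - z * conj z) * dzb R z - z * R z) :=
    ((Bd.const 2).mul (bw.mul bR)).add (bzb.mul ((bw.mul bR').sub (bz.mul bR)))
  have bψ2 : Bd fun z => (1 - z * conj z) * dzb ψ z - z * ψ z := (bw.mul bψ').sub (bz.mul bψ)
  have hY1 : HW fun z => z * G z + (1 - z * conj z) * U z := (d.hG.bd_mul bz).add (hUw.bd_mul bw)
  have hY2 : HW fun z => G z / z + (1 - z * conj z) * (p z * (conj z / z * (conj z * R z - β))) :=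
    d.hGz.add (hX.bd_mul bw)
  have hS1 : HW fun z => z * σ z + ((1 - z * conj z) * dzb ψ z - z * ψ z) :=
    (d.hσ.bd_mul bz).add bψ2.hw
  have hS2 : HW fun z => σ z / z + (2 * β * conj z + conj z / z * (2 * ((1 - z * conj z) * R z) +
      conj z * ((1 - z * conj z) * dzb R z - z * R z))) :=
    d.hσz.add (((Bd.const _).mul bzb).add (Bd.quot.mul bφ)).hw
  have hx1 : ContDiff ℝ ∞ fun z : ℂ => z + conj z := by fun_prop
  have hx2 : ContDiff ℝ ∞ fun z : ℂ => I * (z - conj z) := by fun_prop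
  have hV2 := h.vec2 hY1 hY2 hS1 hS2
    (h.bc_gen d hx1 (fun z => by simp [add_comm]) (cU.add cV) (hUw.add hVw) (hbUw.add hbVw)
      (fun z hz => ⟨_, (wU z hz).add (wV z hz)⟩)
      (fun z hz => by have := hz.1; simp only [hU, hV]; field_simp; ring)
      (fun z hz => by
        have := hz.1
        rw [((HasW.id' z).add (HasW.conj' z)).dzb_eq]
        simp only [hU, hV, hbU, hbV]; field_simp; ring))
    (h.bc_gen d hx2 (fun z => by simp; ring) (contDiffOn_const.mul (cU.sub cV))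
      ((hUw.sub hVw).bd_mul (Bd.const I)) ((hbUw.sub hbVw).bd_mul (Bd.const I))
      (fun z hz => ⟨_, ((wU z hz).sub (wV z hz)).const_mul I⟩)
      (fun z hz => by have := hz.1; simp only [hU, hV]; field_simp; ring)
      (fun z hz => by
        have := hz.1
        rw [(((HasW.id' z).sub (HasW.conj' z)).const_mul I).dzb_eq]
        simp only [hU, hV, hbU, hbV]; field_simp; ring))
  -- the divergence terms
  have bh : Bd fun z => conj (ψ z) + z * conj (R z) := bψ.cj.add (bz.mul bR.cj)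
  have hF1 : HW fun z => σ z * conj z⁻¹ * (conj (ψ z) + z * conj (R z)) :=
    (hσb.mul_bd bh).congr fun z _ => by simp only [map_inv₀]; ring
  have hF1' : L1 fun z => -(μ / 4) * (G z * conj (p z)) * conj z⁻¹ * (conj (ψ z) + z * conj (R z))
      + σ z * conj z⁻¹ * (conj (dzb ψ z) + (conj (R z) + z * conj (dzb R z))) :=
    (((d.hGz.mul h.p_hw.cj).mul_bd (((Bd.const (-(μ / 4))).mul Bd.quot.cj).mul bh)).add
      (hσb.mul_bd (bψ'.cj.add (bR.cj.add (bz.mul bR'.cj)))).l1).congr fun z hz => by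
        have := hz.1
        have := Ds_conj_ne hz
        simp only [map_inv₀, map_div₀, conj_conj]; field_simp
  have hZ1 := ibp_a (F := fun z => σ z * conj z⁻¹ * (conj (ψ z) + z * conj (R z)))
    ((cσ.mul (ContDiffOn.cj ci)).mul (by fun_prop))
    (fun z hz => ⟨_, (((d.wσ z hz).mul (wi z hz).cj).mul
      ((hψ.hasW z).cj.add ((HasW.id' z).mul (hR.hasW z).cj))).congr (by simp) rfl⟩) hF1' hF1.div
  have iZ1 := (hF1'.bd_mul bw).sub (hF1.l1.bd_mul bzb)
  have hF2 : ContDiff ℝ ∞ fun z => β * (z * z * conj (R z)) := by fun_prop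
  have hZ2 := int_dz_van hF2
  have iZ2 := ((bw.mul (Bd.of_contDiff (contDiff_dz hF2))).sub
    (bzb.mul (Bd.of_contDiff hF2))).hw.l1
  have hZ6 := int_dzb_van contDiff_cj
  have iZ6 := ((bw.mul (Bd.of_contDiff (contDiff_dzb contDiff_cj))).sub (bz.mul bzb)).hw.l1
  have hK := hσb.bd_mul bw
  have hμ := h.mu_pos
  have key := ((((((((((((IL.of (hK.sub bψ2.hw).sq 4).add (IL.of bφ.hw.sq 4)).add
    (IL.of (hK.mul_bd bR.cj).l1.re 8)).add (IL.ofZ iZ1 hZ1 8)).add (IL.ofZ iZ2 hZ2 16)).add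
    (IL.ofZ iZ6 hZ6 (-8 * ‖β‖ ^ 2))).add (IL.of (d.hσ.add bβ.hw).sq 8)).add
    (IL.of d.hG.sq (-2 * μ))).add (IL.of hS1.sq (-4))).add (IL.of hS2.sq (-4))).add
    (IL.of hY1.sq μ)).add (IL.of hY2.sq μ)).nonneg fun z hz => by
      refine le_of_le_of_eq (add_nonneg (mul_nonneg hμ.le (sq_nonneg
        ‖z * G z + (1 - z * conj z) * U z - G z / conj z‖)) (mul_nonneg hμ.le (sq_nonneg
        ‖(1 - z * conj z) * (p z * (conj z / z * (conj z * R z - β)))‖))) ?_
      rw [((((HasW.id' z).mul (HasW.id' z)).mul (hR.hasW z).cj).const_mul β).dz_eq,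
        (HasW.conj' z).dzb_eq]
      have := hz.1
      have := Ds_conj_ne hz
      apply ofReal_injective
      push_cast
      simp only [hU, nsq, re_eq_add_conj, map_add, map_sub, map_mul, conj_conj, map_div₀, map_inv₀,
        conj_ofNat, map_one, map_neg, conj_ofReal]
      field_simp
      ring
  linarith [d.E]

theorem step2 (h : Poinc μ f p) (d : Dat μ p G σ β) {q : ℂ → ℂ} (hq : ContDiff ℝ ∞ q) :
    ∫ z in Ds, (σ z * ((1 - z * conj z) * conj ((1 - z * conj z) * dzb q z - 2 * (z * q z)))).re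
      = 0 := by
  set ξ : ℂ → ℂ := fun z => (1 - z * conj z) * dzb q z - 2 * (z * q z) with hξ
  set ζ : ℂ → ℂ := fun z => (1 - z * conj z) * dz q z - 2 * (conj z * q z) with hζ
  have hqa := contDiff_dz hq
  have hqb := contDiff_dzb hq
  have hξs : ContDiff ℝ ∞ ξ := by rw [hξ]; fun_prop
  have hζs : ContDiff ℝ ∞ ζ := by rw [hζ]; fun_prop
  have hξa := contDiff_dz hξs
  have eW : ∀ z, (1 - z * conj z) * dzb ζ z - z * ζ z =
      (1 - z * conj z) * dz ξ z - conj z * ξ z := fun z => by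
    rw [((hasW_van (hqb.hasW z)).sub (((HasW.id' z).mul (hq.hasW z)).const_mul 2)).dz_eq,
      ((hasW_van (hqa.hasW z)).sub (((HasW.conj' z).mul (hq.hasW z)).const_mul 2)).dzb_eq,
      dzb_dz_comm (hq.contDiffAt.of_le (by norm_cast))]
    simp only [hξ, hζ]; ring
  have bw : Bd fun z => 1 - z * conj z := Bd.of_continuous (by fun_prop)
  have hK : HW fun z => (1 - z * conj z) * (σ z / conj z) :=
    ((d.hσz.mul_bd Bd.quot.cj).bd_mul bw).congr fun z hz => by
      have := hz.1
      have := Ds_conj_ne hz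
      simp only [map_div₀, conj_conj]; field_simp
  have iC := (Bd.of_contDiff (F := fun z => z * z * ((1 - z * conj z) * dz ξ z - conj z * ξ z))
    (by fun_prop)).hw.sq
  have iX := (d.hσ.mul_bd (bw.mul (Bd.of_contDiff hξs).cj)).l1.re
  have main : ∀ t : ℝ, 0 ≤ t ^ 2 *
      (∫ z in Ds, ‖z * z * ((1 - z * conj z) * dz ξ z - conj z * ξ z)‖ ^ 2) +
      2 * t * ∫ z in Ds, (σ z * ((1 - z * conj z) * conj (ξ z))).re := by
    intro t
    refine le_of_forall_pos_le_add fun ε hε => ?_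
    obtain ⟨p₀, hp₀, hε'⟩ := exists_poly_L2 hK hε
    obtain ⟨ψ, A, hψ, hA, hA0, e⟩ := hp₀.decomp_a
    have hR : ContDiff ℝ ∞ fun z => -A z + t * (z * ξ z) := by fun_prop
    have h1 := h.step1 d hψ hR
    rw [jac hR] at h1
    have hψb := contDiff_dzb hψ
    have hF4 : ContDiff ℝ ∞ fun z => A z * conj (ψ z) := by fun_prop
    have hF5 : ContDiff ℝ ∞ fun z => conj z * conj z * A z * conj (ζ z) := by fun_prop
    have iZ : ∀ {F : ℂ → ℂ}, ContDiff ℝ ∞ F → L1 fun z => (1 - z * conj z) * dz F z - conj z * F z :=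
      fun hF => (Bd.of_contDiff (by have := contDiff_dz hF; fun_prop)).hw.l1
    have i1 := (hK.sub (Bd.of_contDiff (F := fun z => (1 - z * conj z) * dzb ψ z - z * ψ z)
      (by fun_prop)).hw).sq
    have i2 := (Bd.of_contDiff (F := fun z => z * ((1 - z * conj z) *
      dz (fun z => -A z + t * (z * ξ z)) z - conj z * (-A z + t * (z * ξ z))) -
      (1 - z * conj z) * (-A z + t * (z * ξ z))) (by have := contDiff_dz hR; fun_prop)).hw.sq
    have i3 := (hK.mul_bd (Bd.of_contDiff hR).cj).l1.re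
    have i4 := (hK.sub (Bd.of_continuous hp₀.continuous).hw).sq
    have key := ((((((((IL.of i1 1).add (IL.of i2 1)).add (IL.of i3 2)).add (IL.of i4 (-1))).add
      (IL.of iC (-t ^ 2))).add (IL.of iX (-2 * t))).add (IL.ofZ (iZ hF4) (int_dz_van hF4) 2)).add
      (IL.ofZ (iZ hF5) (int_dz_van hF5) (-2 * t))).zero fun z hz => by
        rw [((hA.hasW z).neg.add (((HasW.id' z).mul (hξs.hasW z)).const_mul t)).dz_eq,
          ((hA.hasW z).mul (hψ.hasW z).cj).dz_eq,
          ((((HasW.conj' z).mul (HasW.conj' z)).mul (hA.hasW z)).mul (hζs.hasW z).cj).dz_eq,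
          hA0, e z]
        have e1 := eW z
        have e2 := congrArg conj e1
        have := hz.1
        have := Ds_conj_ne hz
        apply ofReal_injective
        push_cast
        simp only [nsq, re_eq_add_conj, map_add, map_sub, map_mul, conj_conj, map_div₀,
          map_one, map_neg, conj_ofReal, map_zero] at e2 ⊢
        have e3 : σ z / conj z * conj z = σ z := by field_simp
        have e4 : conj (σ z) / z * z = conj (σ z) := by field_simp
        linear_combination (-(t : ℂ) * z * z * conj (A z)) * e1 - t * conj z * conj z * A z * e2 +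
          t * (1 - z * conj z) * conj (ξ z) * e3 + t * (1 - z * conj z) * ξ z * e4
    linarith
  have hC : 0 ≤ ∫ z in Ds, ‖z * z * ((1 - z * conj z) * dz ξ z - conj z * ξ z)‖ ^ 2 :=
    integral_nonneg fun z => by positivity
  generalize ∫ z in Ds, ‖z * z * ((1 - z * conj z) * dz ξ z - conj z * ξ z)‖ ^ 2 = C at main hC
  change ∫ z in Ds, (σ z * ((1 - z * conj z) * conj (ξ z))).re = 0
  generalize ∫ z in Ds, (σ z * ((1 - z * conj z) * conj (ξ z))).re = X at main
  have h1 := main (-X / (C + 1))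
  have h2 : (-X / (C + 1)) ^ 2 * C + 2 * (-X / (C + 1)) * X = -(X ^ 2 * (C + 2) / (C + 1) ^ 2) := by
    field_simp; ring
  rw [h2, Left.nonneg_neg_iff, div_nonpos_iff] at h1
  have h3 : 0 < (C + 1) ^ 2 := by positivity
  rcases h1 with h1 | h1
  · linarith [h1.2]
  · exact pow_eq_zero_iff two_ne_zero |>.1 (le_antisymm (by nlinarith [h1.1, sq_nonneg X])
      (sq_nonneg X))

theorem step3 (h : Poinc μ f p) (d : Dat μ p G σ β) {q : ℂ → ℂ} (hq : ContDiff ℝ ∞ q) :
    ∫ z in Ds, (G z * conj (p z) * ((1 - z * conj z) ^ 2 * conj (q z))).re = 0 := by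
  have hqb := contDiff_dzb hq
  have bw : Bd fun z => 1 - z * conj z := Bd.of_continuous (by fun_prop)
  have hF : HW fun z => σ z * ((1 - z * conj z) * conj (q z)) :=
    d.hσ.mul_bd (Bd.of_contDiff (by fun_prop))
  have hF' : L1 fun z => -(μ / 4) * (G z * conj (p z)) * ((1 - z * conj z) * conj (q z)) +
      σ z * ((1 - z * conj z) * conj (dzb q z) - conj z * conj (q z)) :=
    (((d.hG.mul h.p_hw.cj).bd_mul (Bd.const _)).mul_bd (Bd.of_contDiff (by fun_prop))).add
      (d.hσ.mul_bd (Bd.of_contDiff (by fun_prop))).l1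
  have hZ := ibp_a (F := fun z => σ z * ((1 - z * conj z) * conj (q z)))
    (d.cσ.mul ((show ContDiff ℝ ∞ fun z => (1 - z * conj z) * conj (q z) by
      fun_prop).contDiffOn.of_le (by simp)))
    (fun z hz => ⟨_, (d.wσ z hz).mul (hasW_van (hq.hasW z).cj)⟩) hF' hF.div
  have i1 := ((d.hG.mul h.p_hw.cj).mul_bd (Bd.of_contDiff
    (F := fun z => (1 - z * conj z) ^ 2 * conj (q z)) (by fun_prop))).re
  have i2 := (d.hσ.mul_bd (Bd.of_contDiff (F := fun z => (1 - z * conj z) *
    conj ((1 - z * conj z) * dzb q z - 2 * (z * q z))) (by fun_prop))).l1.re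
  have key := (((IL.of i1 (μ / 4)).add (IL.of i2 (-1))).add (IL.ofZ ((hF'.bd_mul bw).sub
    (hF.l1.bd_mul (Bd.of_continuous continuous_conj))) hZ 1)).zero fun z _ => by
      apply ofReal_injective
      push_cast
      simp only [re_eq_add_conj, map_add, map_sub, map_mul, conj_conj, map_div₀, map_pow,
        conj_ofNat, map_one, map_neg, conj_ofReal]
      ring
  rw [h.step2 d hq] at key
  have := h.mu_pos
  have h1 : μ / 4 * ∫ z in Ds, (G z * conj (p z) * ((1 - z * conj z) ^ 2 * conj (q z))).re = 0 := by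
    linarith
  exact (mul_eq_zero.1 h1).resolve_left (by positivity)

theorem step4 (h : Poinc μ f p) (d : Dat μ p G σ β) : ∀ z ∈ Ds, G z = 0 := by
  have key : ∀ c : ℂ, ∀ z ∈ Ds, (G z * conj (p z) * ((1 - z * conj z) ^ 2 * conj c)).re = 0 := by
    intro c
    refine eq_zero_of_test isOpen_Ds (continuous_re.comp_continuousOn
      ((d.hG.1.mul h.p_hw.cj.1).mul (by fun_prop))) fun g h1 _ _ => ?_
    rw [← h.step3 d (q := fun z => c * g z) (contDiff_const.mul (ofRealCLM.contDiff.comp h1))]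
    congr 1; funext z
    rw [← re_ofReal_mul, map_mul, conj_ofReal]
    congr 1; ring
  intro z hz
  have h1 := key 1 z hz
  have h2 := key I z hz
  have h3 : G z * conj (p z) * (1 - z * conj z) ^ 2 = 0 := by
    rw [map_one, mul_one] at h1
    rw [conj_I, ← mul_assoc, mul_neg, neg_re, mul_I_re, neg_neg] at h2
    exact Complex.ext h1 h2
  have h4 := h.p_ne z (Ds_subset hz)
  have h5 := Ds_one_sub_ne hz
  simpa [h4, h5] using h3

/-- an eigenfunction with a critical point at the origin vanishes -/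
theorem eig_zero (h : Poinc μ f p) {v : ℂ → ℂ} (hv : ContDiffOn ℝ 2 v (ball 0 1))
    (vr : ∀ z, conj (v z) = v z) (hG : IntegrableOn (fun z => ‖dz v z‖ ^ 2) Ds)
    (hpv : IntegrableOn (fun z => ‖p z * v z‖ ^ 2) Ds)
    (hN : ∀ a : ℂ → ℂ, ContDiff ℝ ∞ a → (∀ z, conj (a z) = a z) →
      ∫ z in Ds, (4 * (dz v z * dzb a z) - μ * (p z * conj (p z) * v z * a z)).re = 0)
    (hE : μ * ∫ z in Ds, ‖p z * v z‖ ^ 2 = 4 * ∫ z in Ds, ‖dz v z‖ ^ 2) (h0 : dz v 0 = 0) :
    ∀ z ∈ ball (0 : ℂ) 1, v z = 0 := by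
  have hμ := h.mu_pos
  have cG : ContDiffOn ℝ 1 (dz v) (ball 0 1) := contDiffOn_dz isOpen_ball hv (by norm_num)
  have cp := h.contDiffOn_p (n := 1)
  have cv : ContDiffOn ℝ 1 v (ball 0 1) := hv.of_le (by norm_num)
  have hGw := HW.of_ball cG.continuousOn hG
  have wG : ∀ z ∈ Ds, HasW (dz v) (dz (dz v) z) (dzb (dz v) z) z := fun z hz =>
    ((cG.contDiffAt (isOpen_ball.mem_nhds (Ds_subset hz))).differentiableAt one_ne_zero).hasW
  have wv : ∀ z ∈ Ds, HasW v (dz v z) (dzb v z) z := fun z hz =>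
    ((cv.contDiffAt (isOpen_ball.mem_nhds (Ds_subset hz))).differentiableAt one_ne_zero).hasW
  have cGa : ContinuousOn (dz (dz v)) Ds :=
    (contDiffOn_dz (m := 0) isOpen_Ds (cG.mono Ds_subset) (by simp)).continuousOn
  have cGb : ContinuousOn (dzb (dz v)) Ds :=
    (contDiffOn_dzb (m := 0) isOpen_Ds (cG.mono Ds_subset) (by simp)).continuousOn
  have hpvw : HW fun z => v z * conj (p z) :=
    HW.of_ball (cv.mul (ContDiffOn.cj cp)).continuousOn (by simpa [mul_comm] using hpv)
  have eq1 : ∀ z ∈ Ds, (4 * dzb (dz v) z + μ * (p z * conj (p z) * v z)).re = 0 := by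
    refine eq_zero_of_test isOpen_Ds (continuous_re.comp_continuousOn
      ((continuousOn_const.mul cGb).add (continuousOn_const.mul ((h.p_hw.1.mul h.p_hw.cj.1).mul
        (cv.continuousOn.mono Ds_subset))))) fun g h1 h2 h3 => ?_
    have hg : ContDiff ℝ ∞ fun z => (g z : ℂ) := ofRealCLM.contDiff.comp h1
    have h2' : HasCompactSupport fun z => (g z : ℂ) := h2.comp_left (g := ofReal) rfl
    have h3' : tsupport (fun z => (g z : ℂ)) ⊆ tsupport g :=
      closure_mono (Function.support_comp_subset (g := ofReal) rfl g)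
    have hZ := (ibp_compact wG cGa cGb hg.hasW (contDiff_dz hg).continuous
      (contDiff_dzb hg).continuous h2' (h3'.trans h3)).2
    have i1 := hGw.mul_bd (Bd.of_contDiff (contDiff_dzb hg))
    have iZ : L1 fun z => dz v z * dzb (fun z => (g z : ℂ)) z + dzb (dz v) z * g z :=
      i1.l1.add ⟨cGb.mul hg.continuous.continuousOn, (integrable_mul_of_compact h2 h3 cGb
        hg.continuous fun z hz => by simp [image_eq_zero_of_notMem_tsupport hz]).integrableOn⟩
    have iN : L1 fun z => 4 * (dz v z * dzb (fun z => (g z : ℂ)) z) -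
        μ * (p z * conj (p z) * v z * g z) :=
      (i1.l1.bd_mul (Bd.const 4)).sub ((((h.p_hw.mul hpvw).mul_bd (Bd.of_contDiff hg)).bd_mul
        (Bd.const μ)).congr fun z _ => by ring)
    have key := (IL.ofZ iZ hZ 4).add (IL.of iN.re (-1))
    rw [hN _ hg fun z => conj_ofReal _, mul_zero, add_zero] at key
    rw [← key.2]
    congr 1; funext z
    apply ofReal_injective
    push_cast
    simp only [re_eq_add_conj, map_add, map_sub, map_mul, conj_ofNat, conj_ofReal]
    ring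
  have eq2 : ∀ z ∈ Ds, dzb (dz v) z = p z * (-(μ / 4) * (v z * conj (p z))) := by
    intro z hz
    have h1 := congrArg ofReal (eq1 z hz)
    have h2 := conj_dzb_dz (hv.contDiffAt (isOpen_ball.mem_nhds (Ds_subset hz)))
      (Eventually.of_forall vr)
    simp only [re_eq_add_conj, map_add, map_mul, conj_ofNat, conj_ofReal, h2, vr, conj_conj,
      ofReal_zero] at h1
    linear_combination h1 / 4
  set β : ℂ := -(μ / 4) * (v 0 * conj (p 0)) with hβ
  have cσ : ContDiffOn ℝ 1 (fun z => -(μ / 4) * (v z * conj (p z)) - β) (ball 0 1) :=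
    (contDiffOn_const.mul (cv.mul (ContDiffOn.cj cp))).sub contDiffOn_const
  have hσ : HW fun z => -(μ / 4) * (v z * conj (p z)) - β :=
    (hpvw.bd_mul (Bd.const _)).sub (Bd.const β).hw
  have d : Dat μ p (dz v) (fun z => -(μ / 4) * (v z * conj (p z)) - β) β :=
    { hG := hGw
      hGz := HW.div_of_ball cG h0 hG
      cG := cG.mono Ds_subset
      hσ := hσ
      hσz := HW.div_of_ball cσ (sub_self _) hσ.sq
      cσ := cσ.mono Ds_subset
      wG := fun z hz => (wG z hz).congr rfl (by rw [eq2 z hz]; ring)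
      wσ := fun z hz => by
        have := (((wv z hz).mul (h.hasW_p (Ds_subset hz)).cj).const_mul (-(μ / 4))).sub
          (HasW.const β z)
        exact this.congr (by simp) this.dzb_eq.symm
      N := fun a ha har => by
        have := hN a ha har
        rw [← mul_zero (1 / 4 : ℝ), ← this, ← integral_const_mul]
        congr 1; funext z
        rw [← re_ofReal_mul]
        congr 1; push_cast; ring
      E := by
        have : ∫ z in Ds, ‖-(μ / 4) * (v z * conj (p z)) - β + β‖ ^ 2 =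
            (μ / 4) ^ 2 * ∫ z in Ds, ‖p z * v z‖ ^ 2 := by
          rw [← integral_const_mul]
          congr 1; funext z
          apply ofReal_injective
          push_cast
          simp only [nsq, map_add, map_sub, map_mul, conj_ofNat, conj_ofReal, map_neg, map_div₀,
            conj_conj]
          ring
        rw [this]
        linear_combination μ / 4 * hE }
  have hG0 := h.step4 d
  rw [setIntegral_eq_zero_of_forall_eq_zero (f := fun z => ‖dz v z‖ ^ 2)
    fun z hz => by simp [hG0 z hz], mul_zero, mul_eq_zero] at hE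
  have h1 := (setIntegral_eq_zero_iff_of_nonneg_ae (Eventually.of_forall fun z => by positivity)
    hpv).1 (hE.resolve_left hμ.ne')
  rw [restrict_Ds] at h1
  have h2 := Measure.eqOn_open_of_ae_eq h1 isOpen_ball
    (((cp.mul cv).continuousOn.norm).pow 2) continuousOn_const
  intro z hz
  simpa [h.p_ne z hz] using h2 hz

end Poinc

end Vale.Agent.P071
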