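import Mathlib

open MeasureTheory
open scoped ContDiff

namespace Vale.Agent.P071

/-- The plane is modelled by `ℂ` (Euclidean norm, Lebesgue measure). `Ω` has Lipschitz boundary:
near every boundary point, after a rotation, `Ω` is the region above the graph of a Lipschitz
function. -/
def HasLipschitzBoundary (Ω : Set ℂ) : Prop :=
  ∀ p ∈ frontier Ω, ∃ (c : ℂ) (r : ℝ) (K : NNReal) (γ : ℝ → ℝ), ‖c‖ = 1 ∧ 0 < r ∧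
    LipschitzWith K γ ∧
    ∀ z ∈ Metric.ball p r, (z ∈ Ω ↔ γ (c * (z - p)).re < (c * (z - p)).im)

/-- `g` is the weak derivative of `v` on `Ω` in the direction `e`. -/
def HasWeakDeriv (Ω : Set ℂ) (e : ℂ) (v g : ℂ → ℝ) : Prop :=
  ∀ φ : ℂ → ℝ, ContDiff ℝ ∞ φ → HasCompactSupport φ → tsupport φ ⊆ Ω →
    ∫ z in Ω, v z * fderiv ℝ φ z e = -∫ z in Ω, g z * φ z

/-- `v ∈ H¹(Ω)` with weak gradient `(g₁, g₂)`. -/
def MemH1 (Ω : Set ℂ) (v g₁ g₂ : ℂ → ℝ) : Prop :=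
  MemLp v 2 (volume.restrict Ω) ∧ MemLp g₁ 2 (volume.restrict Ω) ∧
    MemLp g₂ 2 (volume.restrict Ω) ∧ HasWeakDeriv Ω 1 v g₁ ∧ HasWeakDeriv Ω Complex.I v g₂

/-- The first positive Neumann eigenvalue, as the infimum of Rayleigh quotients over nonzero
mean-zero elements of `H¹(Ω)`. -/
noncomputable def mu1 (Ω : Set ℂ) : ℝ :=
  sInf {R : ℝ | ∃ v g₁ g₂ : ℂ → ℝ, MemH1 Ω v g₁ g₂ ∧ ∫ z in Ω, v z ^ 2 ≠ 0 ∧ ∫ z in Ω, v z = 0 ∧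
    R = (∫ z in Ω, (g₁ z ^ 2 + g₂ z ^ 2)) / ∫ z in Ω, v z ^ 2}

/-- `u ∈ H¹(Ω)` is a weak solution of `-Δ u = μ u` in `Ω` with zero normal derivative on the
boundary. -/
def IsWeakNeumannSolution (Ω : Set ℂ) (μ : ℝ) (u : ℂ → ℝ) : Prop :=
  ∃ g₁ g₂ : ℂ → ℝ, MemH1 Ω u g₁ g₂ ∧ ∀ v h₁ h₂ : ℂ → ℝ, MemH1 Ω v h₁ h₂ →
    ∫ z in Ω, (g₁ z * h₁ z + g₂ z * h₂ z) = μ * ∫ z in Ω, u z * v z

end Vale.Agent.P071
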