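import Vale.Agent.P071.W

/-!
Function classes on the punctured unit disc and integration by parts there.
-/

open MeasureTheory Complex Set Metric Filter Topology
open scoped ComplexConjugate ContDiff

namespace Vale.Agent.P071

/-- the punctured unit disc -/
def Ds : Set ℂ := {z | z ≠ 0 ∧ ‖z‖ < 1}

theorem Ds_eq : Ds = ball (0 : ℂ) 1 \ {0} := by ext z; simp [Ds, and_comm]
theorem isOpen_Ds : IsOpen Ds := Ds_eq ▸ isOpen_ball.sdiff isClosed_singleton
theorem measurableSet_Ds : MeasurableSet Ds := isOpen_Ds.measurableSet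
theorem Ds_subset : Ds ⊆ ball (0 : ℂ) 1 := Ds_eq ▸ sdiff_subset
theorem Ds_nhds {z : ℂ} (hz : z ∈ Ds) : Ds ∈ 𝓝 z := isOpen_Ds.mem_nhds hz
theorem restrict_Ds : (volume : Measure ℂ).restrict Ds = volume.restrict (ball 0 1) :=
  Measure.restrict_congr_set (Ds_eq ▸ sdiff_null_ae_eq_self (measure_singleton 0))
theorem Ds_conj_ne {z : ℂ} (hz : z ∈ Ds) : conj z ≠ 0 := by simpa using hz.1
theorem Ds_one_sub_ne {z : ℂ} (hz : z ∈ Ds) : 1 - z * conj z ≠ 0 := by
  rw [mul_conj, normSq_eq_norm_sq, sub_ne_zero]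
  have : ‖z‖ ^ 2 < 1 := pow_lt_one₀ (norm_nonneg _) hz.2 two_ne_zero
  exact_mod_cast this.ne'

instance : IsFiniteMeasure ((volume : Measure ℂ).restrict Ds) :=
  isFiniteMeasure_restrict.2 ((measure_mono Ds_subset).trans_lt measure_ball_lt_top).ne

@[fun_prop] theorem contDiff_cj {n : WithTop ℕ∞} : ContDiff ℝ n (fun z : ℂ => conj z) :=
  conjCLE.contDiff

@[fun_prop] theorem ContDiffOn.cj {n : WithTop ℕ∞} {F : ℂ → ℂ} {U : Set ℂ}
    (h : ContDiffOn ℝ n F U) : ContDiffOn ℝ n (fun z => conj (F z)) U :=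
  conjCLE.contDiff.comp_contDiffOn h

@[fun_prop] theorem ContDiff.cj {n : WithTop ℕ∞} {F : ℂ → ℂ}
    (h : ContDiff ℝ n F) : ContDiff ℝ n (fun z => conj (F z)) :=
  conjCLE.contDiff.comp h

/-- continuous and bounded on the punctured disc -/
def Bd (F : ℂ → ℂ) : Prop := ContinuousOn F Ds ∧ ∃ C, ∀ z ∈ Ds, ‖F z‖ ≤ C

/-- continuous and square integrable for the weight `1 / |z|` -/
def HW (F : ℂ → ℂ) : Prop := ContinuousOn F Ds ∧ IntegrableOn (fun z => ‖F z‖ ^ 2 / ‖z‖) Ds

/-- continuous and integrable -/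
def L1 (F : ℂ → ℂ) : Prop := ContinuousOn F Ds ∧ IntegrableOn F Ds

theorem ae_Ds {p : ℂ → Prop} (h : ∀ z ∈ Ds, p z) : ∀ᵐ z ∂(volume.restrict Ds), p z :=
  ae_restrict_of_forall_mem measurableSet_Ds h

theorem integrableOn_of_le {E : Type*} [NormedAddCommGroup E] {F : ℂ → E} {g : ℂ → ℝ}
    (hF : ContinuousOn F Ds) (hg : IntegrableOn g Ds) (h : ∀ z ∈ Ds, ‖F z‖ ≤ g z) :
    IntegrableOn F Ds :=
  Integrable.mono' hg (hF.aestronglyMeasurable measurableSet_Ds) (ae_Ds h)

theorem integrableOn_inv_norm : IntegrableOn (fun z : ℂ => 1 / ‖z‖) Ds := by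
  refine IntegrableOn.mono_set ?_ Ds_subset
  refine integrableOn_ball_of_norm_le_rpow (C := 1) (α := 1) (by simp) (by simp)
    (Eventually.of_forall fun z => by simp [Real.rpow_neg_one]) ?_
  exact (measurable_const.div measurable_norm).aestronglyMeasurable

namespace Bd
variable {F H : ℂ → ℂ}

theorem congr (h : Bd F) (e : ∀ z ∈ Ds, H z = F z) : Bd H :=
  ⟨h.1.congr e, h.2.imp fun _ hC z hz => e z hz ▸ hC z hz⟩

theorem of_continuous (h : Continuous F) : Bd F := by
  obtain ⟨C, hC⟩ := (isCompact_closedBall (0 : ℂ) 1).exists_bound_of_continuousOn h.continuousOn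
  exact ⟨h.continuousOn, C, fun z hz => hC z (ball_subset_closedBall (Ds_subset hz))⟩

theorem of_contDiff (h : ContDiff ℝ ∞ F) : Bd F := of_continuous h.continuous

theorem const (c : ℂ) : Bd fun _ => c := of_continuous continuous_const

theorem add (h : Bd F) (h' : Bd H) : Bd fun z => F z + H z := by
  obtain ⟨C, hC⟩ := h.2
  obtain ⟨C', hC'⟩ := h'.2
  exact ⟨h.1.add h'.1, C + C', fun z hz => norm_add_le_of_le (hC z hz) (hC' z hz)⟩

theorem mul (h : Bd F) (h' : Bd H) : Bd fun z => F z * H z := by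
  obtain ⟨C, hC⟩ := h.2
  obtain ⟨C', hC'⟩ := h'.2
  exact ⟨h.1.mul h'.1, C * C', fun z hz => by
    rw [norm_mul]
    exact mul_le_mul (hC z hz) (hC' z hz) (norm_nonneg _) ((norm_nonneg _).trans (hC z hz))⟩

theorem neg (h : Bd F) : Bd fun z => -F z := ((const (-1)).mul h).congr fun _ _ => by ring

theorem sub (h : Bd F) (h' : Bd H) : Bd fun z => F z - H z :=
  (h.add h'.neg).congr fun _ _ => by ring

theorem cj (h : Bd F) : Bd fun z => conj (F z) :=
  ⟨continuous_conj.comp_continuousOn h.1, h.2.imp fun _ hC z hz => by simpa using hC z hz⟩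

theorem quot : Bd fun z => conj z / z :=
  ⟨continuous_conj.continuousOn.div continuousOn_id fun _ hz => hz.1, 1, fun z hz => by
    simp [div_self (norm_ne_zero_iff.2 hz.1)]⟩

theorem hw (h : Bd F) : HW F := by
  obtain ⟨C, hC⟩ := h.2
  refine ⟨h.1, integrableOn_of_le ((h.1.norm.pow 2).div continuous_norm.continuousOn
    fun _ hz => norm_ne_zero_iff.2 hz.1) (integrableOn_inv_norm.const_mul (C ^ 2)) fun z hz => ?_⟩
  rw [Real.norm_of_nonneg (by positivity), mul_one_div]
  gcongr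
  exact hC z hz

end Bd

theorem contOn_w {F : ℂ → ℂ} (h : ContinuousOn F Ds) :
    ContinuousOn (fun z => ‖F z‖ ^ 2 / ‖z‖) Ds :=
  (h.norm.pow 2).div continuous_norm.continuousOn fun _ hz => norm_ne_zero_iff.2 hz.1

namespace L1
variable {F H : ℂ → ℂ}

theorem congr (h : L1 F) (e : ∀ z ∈ Ds, H z = F z) : L1 H :=
  ⟨h.1.congr e, h.2.congr_fun (fun z hz => (e z hz).symm) measurableSet_Ds⟩

theorem add (h : L1 F) (h' : L1 H) : L1 fun z => F z + H z := ⟨h.1.add h'.1, h.2.add h'.2⟩
theorem sub (h : L1 F) (h' : L1 H) : L1 fun z => F z - H z := ⟨h.1.sub h'.1, h.2.sub h'.2⟩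
theorem neg (h : L1 F) : L1 fun z => -F z := ⟨h.1.neg, h.2.neg⟩

theorem mul_bd (h : L1 F) (h' : Bd H) : L1 fun z => F z * H z := by
  obtain ⟨C, hC⟩ := h'.2
  refine ⟨h.1.mul h'.1, integrableOn_of_le (h.1.mul h'.1) (h.2.norm.mul_const C) fun z hz => ?_⟩
  rw [norm_mul]
  exact mul_le_mul_of_nonneg_left (hC z hz) (norm_nonneg _)

theorem bd_mul (h : L1 F) (h' : Bd H) : L1 fun z => H z * F z :=
  (h.mul_bd h').congr fun _ _ => mul_comm _ _

theorem cj (h : L1 F) : L1 fun z => conj (F z) :=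
  ⟨continuous_conj.comp_continuousOn h.1, integrableOn_of_le
    (continuous_conj.comp_continuousOn h.1) h.2.norm fun z _ => by simp⟩

theorem re (h : L1 F) : IntegrableOn (fun z => (F z).re) Ds := h.2.re

end L1

namespace HW
variable {F H : ℂ → ℂ}

theorem congr (h : HW F) (e : ∀ z ∈ Ds, H z = F z) : HW H :=
  ⟨h.1.congr e, h.2.congr_fun (fun z hz => by simp only [e z hz]) measurableSet_Ds⟩

theorem add (h : HW F) (h' : HW H) : HW fun z => F z + H z := by
  refine ⟨h.1.add h'.1, integrableOn_of_le (contOn_w (h.1.add h'.1))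
    ((h.2.const_mul 2).add (h'.2.const_mul 2)) fun z _ => ?_⟩
  rw [Real.norm_of_nonneg (by positivity), Pi.add_apply, ← mul_div_assoc, ← mul_div_assoc,
    ← add_div]
  gcongr
  nlinarith [norm_add_le (F z) (H z), norm_nonneg (F z + H z), sq_nonneg (‖F z‖ - ‖H z‖)]

theorem mul_bd (h : HW F) (h' : Bd H) : HW fun z => F z * H z := by
  obtain ⟨C, hC⟩ := h'.2
  refine ⟨h.1.mul h'.1, integrableOn_of_le (contOn_w (h.1.mul h'.1)) (h.2.const_mul (C ^ 2))
    fun z hz => ?_⟩
  rw [Real.norm_of_nonneg (by positivity), ← mul_div_assoc, norm_mul, mul_pow, mul_comm]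
  gcongr
  exact hC z hz

theorem bd_mul (h : HW F) (h' : Bd H) : HW fun z => H z * F z :=
  (h.mul_bd h').congr fun _ _ => mul_comm _ _

theorem neg (h : HW F) : HW fun z => -F z := (h.bd_mul (Bd.const (-1))).congr fun _ _ => by ring

theorem sub (h : HW F) (h' : HW H) : HW fun z => F z - H z :=
  (h.add h'.neg).congr fun _ _ => by ring

theorem cj (h : HW F) : HW fun z => conj (F z) :=
  ⟨continuous_conj.comp_continuousOn h.1, by simpa using h.2⟩

theorem mul_div (h : HW F) (h' : HW H) : L1 fun z => F z * H z / z := by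
  have hc : ContinuousOn (fun z => F z * H z / z) Ds :=
    (h.1.mul h'.1).div continuousOn_id fun _ hz => hz.1
  refine ⟨hc, integrableOn_of_le hc (h.2.add h'.2) fun z _ => ?_⟩
  rw [Pi.add_apply, norm_div, norm_mul, ← add_div]
  gcongr
  nlinarith [sq_nonneg (‖F z‖ - ‖H z‖), mul_nonneg (norm_nonneg (F z)) (norm_nonneg (H z))]

theorem mul (h : HW F) (h' : HW H) : L1 fun z => F z * H z :=
  ((h.mul_div h').mul_bd (Bd.of_continuous continuous_id)).congr fun z hz => by
    have := hz.1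
    simp only [id]; field_simp

theorem div (h : HW F) : L1 fun z => F z / z :=
  (h.mul_div (Bd.const 1).hw).congr fun _ _ => by ring

theorem l1 (h : HW F) : L1 F := (h.mul (Bd.const 1).hw).congr fun _ _ => by ring

theorem sq (h : HW F) : IntegrableOn (fun z => ‖F z‖ ^ 2) Ds :=
  (h.mul h.cj).re.congr_fun (fun z _ => by simp only [mul_conj, ofReal_re, normSq_eq_norm_sq])
    measurableSet_Ds

theorem of_sq (hc : ContinuousOn F Ds) (hb : ∃ C, ∀ z ∈ Ds, ‖z‖ ≤ 1 / 2 → ‖F z‖ ≤ C)
    (hi : IntegrableOn (fun z => ‖F z‖ ^ 2) Ds) : HW F := by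
  obtain ⟨C, hC⟩ := hb
  refine ⟨hc, integrableOn_of_le (contOn_w hc)
    ((integrableOn_inv_norm.const_mul (C ^ 2)).add (hi.const_mul 2)) fun z hz => ?_⟩
  have h0 : 0 < ‖z‖ := norm_pos_iff.2 hz.1
  rw [Real.norm_of_nonneg (by positivity), Pi.add_apply]
  rcases le_or_gt ‖z‖ (1 / 2) with h | h
  · have : ‖F z‖ ^ 2 / ‖z‖ ≤ C ^ 2 * (1 / ‖z‖) := by
      rw [mul_one_div]; gcongr; exact hC z hz h
    nlinarith [sq_nonneg ‖F z‖]
  · have : ‖F z‖ ^ 2 / ‖z‖ ≤ 2 * ‖F z‖ ^ 2 := by
      rw [div_le_iff₀ h0]; nlinarith [sq_nonneg ‖F z‖]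
    have : 0 ≤ C ^ 2 * (1 / ‖z‖) := by positivity
    linarith

/-- a function continuous on the disc and square integrable -/
theorem of_ball (hc : ContinuousOn F (ball 0 1)) (hi : IntegrableOn (fun z => ‖F z‖ ^ 2) Ds) :
    HW F := by
  obtain ⟨C, hC⟩ := (isCompact_closedBall (0 : ℂ) (1 / 2)).exists_bound_of_continuousOn
    (hc.mono (closedBall_subset_ball (by norm_num)))
  exact of_sq (hc.mono Ds_subset) ⟨C, fun z _ h => hC z (by simpa using h)⟩ hi

/-- dividing by `z` a function that vanishes at the origin -/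
theorem div_of_ball (hc : ContDiffOn ℝ 1 F (ball 0 1)) (h0 : F 0 = 0)
    (hi : IntegrableOn (fun z => ‖F z‖ ^ 2) Ds) : HW fun z => F z / z := by
  have hcD : ContinuousOn (fun z => F z / z) Ds :=
    (hc.continuousOn.mono Ds_subset).div continuousOn_id fun _ hz => hz.1
  obtain ⟨K, hK⟩ := (hc.mono (closedBall_subset_ball (show (1 / 2 : ℝ) < 1 by norm_num))).exists_lipschitzOnWith
    one_ne_zero (convex_closedBall _ _) (isCompact_closedBall _ _)
  have hb : ∀ z ∈ Ds, ‖z‖ ≤ 1 / 2 → ‖F z / z‖ ≤ K := by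
    intro z hz h
    have := hK.norm_sub_le (x := z) (y := 0) (by simpa using h) (by simp)
    rw [h0, sub_zero, sub_zero] at this
    rw [norm_div, div_le_iff₀ (norm_pos_iff.2 hz.1)]
    exact this
  refine of_sq hcD ⟨K, hb⟩ (integrableOn_of_le (hcD.norm.pow 2)
    ((integrableOn_const (C := (K : ℝ) ^ 2) (by
      simpa using measure_ne_top ((volume : Measure ℂ).restrict Ds) univ)).add (hi.const_mul 4))
    fun z hz => ?_)
  have h0 : 0 < ‖z‖ := norm_pos_iff.2 hz.1
  rw [Real.norm_of_nonneg (by positivity), Pi.add_apply]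
  rcases le_or_gt ‖z‖ (1 / 2) with h | h
  · have := pow_le_pow_left₀ (norm_nonneg _) (hb z hz h) 2
    nlinarith [sq_nonneg ‖F z‖]
  · have : ‖F z / z‖ ≤ 2 * ‖F z‖ := by
      rw [norm_div, div_le_iff₀ h0]; nlinarith [norm_nonneg (F z)]
    have := pow_le_pow_left₀ (norm_nonneg _) this 2
    nlinarith [sq_nonneg (K : ℝ)]

end HW

theorem HasW.real_comp {F : ℂ → ℂ} {a b z : ℂ} (h : HasW F a b z) {g : ℝ → ℝ} {g' : ℝ}
    (hg : HasDerivAt g g' (F z).re) :
    HasW (fun w => (g (F w).re : ℂ)) (g' * (a + conj b) / 2) (g' * (b + conj a) / 2) z := by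
  have h1 := ofRealCLM.hasFDerivAt.comp z (hg.hasFDerivAt.comp z (reCLM.hasFDerivAt.comp z h))
  refine h1.congr_fderiv ?_
  ext1 w
  simp only [ContinuousLinearMap.comp_apply, reCLM_apply, wl_apply,
    ContinuousLinearMap.toSpanSingleton_apply, smul_eq_mul, ofRealCLM_apply, ofReal_mul,
    re_eq_add_conj, map_add, map_mul, conj_conj]
  ring

theorem exists_cut_bound : ∃ M : ℝ, ∀ x : ℝ, |x * deriv Real.smoothTransition (x - 1)| ≤ M := by
  have hc : Continuous fun x : ℝ => x * deriv Real.smoothTransition (x - 1) :=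
    continuous_id.mul (((Real.smoothTransition.contDiff (n := 1)).continuous_deriv le_rfl).comp
      (continuous_id.sub continuous_const))
  obtain ⟨M, hM⟩ := (isCompact_Icc (a := (1 : ℝ)) (b := 2)).exists_bound_of_continuousOn
    hc.continuousOn
  refine ⟨max M 0, fun x => ?_⟩
  by_cases hx : x ∈ Icc (1 : ℝ) 2
  · exact (hM x hx).trans (le_max_left _ _)
  · have : deriv Real.smoothTransition (x - 1) = 0 := by
      rw [mem_Icc, not_and_or, not_le, not_le] at hx
      rcases hx with hx | hx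
      · have : Real.smoothTransition =ᶠ[𝓝 (x - 1)] fun _ => 0 := by
          filter_upwards [Iio_mem_nhds (show x - 1 < 0 by linarith)] with y hy
            using Real.smoothTransition.zero_of_nonpos (le_of_lt hy)
        rw [this.deriv_eq, deriv_const]
      · have : Real.smoothTransition =ᶠ[𝓝 (x - 1)] fun _ => 1 := by
          filter_upwards [Ioi_mem_nhds (show 1 < x - 1 by linarith)] with y hy
            using Real.smoothTransition.one_of_one_le (le_of_lt hy)
        rw [this.deriv_eq, deriv_const]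
    simp [this]

theorem exists_cutoff : ∃ (M : ℝ) (χ c : ℕ → ℝ → ℝ),
    (∀ n t, HasDerivAt (χ n) (c n t) t) ∧ (∀ n, Continuous (c n)) ∧ (∀ n t, |χ n t| ≤ 1) ∧
    (∀ n t, 0 < t → t < 1 → |c n t| ≤ M / (t * (1 - t))) ∧
    (∀ n t, χ n t ≠ 0 → 1 / (n + 1 : ℝ) ≤ t ∧ t ≤ 1 - 1 / (n + 1 : ℝ)) ∧
    (∀ t, 0 < t → t < 1 → ∀ᶠ n in atTop, χ n t = 1 ∧ c n t = 0) := by
  obtain ⟨M, hM⟩ := exists_cut_bound
  set γ := Real.smoothTransition with hγ
  have hd : ∀ x, HasDerivAt γ (deriv γ x) x := fun x =>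
    ((Real.smoothTransition.contDiff (n := 1)).differentiable one_ne_zero x).hasDerivAt
  have hdc : Continuous (deriv γ) := (Real.smoothTransition.contDiff (n := 1)).continuous_deriv le_rfl
  have hγc : Continuous γ := Real.smoothTransition.continuous
  have hγ1 : ∀ x, |γ x| ≤ 1 := fun x => by
    rw [abs_of_nonneg (Real.smoothTransition.nonneg x)]; exact Real.smoothTransition.le_one x
  have hM0 : 0 ≤ M := (abs_nonneg _).trans (hM 0)
  have hD : ∀ (n : ℕ) t, HasDerivAt (fun t => γ ((n + 1) * t - 1) * γ ((n + 1) * (1 - t) - 1))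
      (deriv γ ((n + 1) * t - 1) * (n + 1) * γ ((n + 1) * (1 - t) - 1) -
        γ ((n + 1) * t - 1) * (deriv γ ((n + 1) * (1 - t) - 1) * (n + 1))) t := by
    intro n t
    have h1 : HasDerivAt (fun t : ℝ => ((n : ℝ) + 1) * t - 1) (n + 1) t := by
      simpa using ((hasDerivAt_id t).const_mul ((n : ℝ) + 1)).sub_const 1
    have h2 : HasDerivAt (fun t : ℝ => ((n : ℝ) + 1) * (1 - t) - 1) (-(n + 1)) t := by
      simpa using (((hasDerivAt_id t).const_sub 1).const_mul ((n : ℝ) + 1)).sub_const 1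
    exact (((hd _).comp t h1).mul ((hd _).comp t h2)).congr_deriv (by simp; ring)
  refine ⟨M, fun n t => γ ((n + 1) * t - 1) * γ ((n + 1) * (1 - t) - 1), _, hD,
    fun n => by fun_prop, fun n t => ?_, fun n t h0 h1 => ?_, fun n t h => ?_, fun t h0 h1 => ?_⟩
  · rw [abs_mul]; exact mul_le_one₀ (hγ1 _) (abs_nonneg _) (hγ1 _)
  · have h1' : 0 < 1 - t := by linarith
    have e1 : |deriv γ ((n + 1) * t - 1) * (n + 1)| ≤ M / t := by
      rw [le_div_iff₀ h0]
      have := hM ((n + 1) * t)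
      rwa [show ((n : ℝ) + 1) * t * deriv γ ((n + 1) * t - 1) =
        deriv γ ((n + 1) * t - 1) * (n + 1) * t by ring, abs_mul, abs_of_pos h0] at this
    have e2 : |deriv γ ((n + 1) * (1 - t) - 1) * (n + 1)| ≤ M / (1 - t) := by
      rw [le_div_iff₀ h1']
      have := hM ((n + 1) * (1 - t))
      rwa [show ((n : ℝ) + 1) * (1 - t) * deriv γ ((n + 1) * (1 - t) - 1) =
        deriv γ ((n + 1) * (1 - t) - 1) * (n + 1) * (1 - t) by ring, abs_mul, abs_of_pos h1'] at this
    refine (abs_sub _ _).trans ?_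
    rw [abs_mul, abs_mul (γ _)]
    have e3 : M / (t * (1 - t)) = M / t + M / (1 - t) := by field_simp; ring
    rw [e3]
    exact add_le_add (by simpa using mul_le_mul e1 (hγ1 _) (abs_nonneg _) (by positivity))
      (by simpa using mul_le_mul (hγ1 _) e2 (abs_nonneg _) zero_le_one)
  · have hn : (0 : ℝ) < n + 1 := by positivity
    have e1 : ¬ ((n + 1) * t - 1 ≤ 0) := fun h' =>
      h (by simp only [hγ, Real.smoothTransition.zero_of_nonpos h', zero_mul])
    have e2 : ¬ ((n + 1) * (1 - t) - 1 ≤ 0) := fun h' =>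
      h (by simp only [hγ, Real.smoothTransition.zero_of_nonpos h', mul_zero])
    constructor
    · rw [div_le_iff₀ hn]; linarith
    · rw [le_sub_comm, div_le_iff₀ hn]; linarith
  · have h1' : 0 < 1 - t := by linarith
    have ht : ∀ s : ℝ, 0 < s → ∀ᶠ n : ℕ in atTop, 1 < ((n : ℝ) + 1) * s - 1 := by
      intro s hs
      filter_upwards [tendsto_natCast_atTop_atTop.eventually_gt_atTop (2 / s)] with n hn
      rw [div_lt_iff₀ hs] at hn; linarith
    have hz : ∀ x, 1 < x → deriv γ x = 0 := by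
      intro x hx
      have : γ =ᶠ[𝓝 x] fun _ => 1 := by
        filter_upwards [Ioi_mem_nhds hx] with y hy
          using Real.smoothTransition.one_of_one_le (le_of_lt hy)
      rw [this.deriv_eq, deriv_const]
    filter_upwards [ht t h0, ht (1 - t) h1'] with n e1 e2
    rw [hz _ e1, hz _ e2]
    simp only [hγ, Real.smoothTransition.one_of_one_le e1.le,
      Real.smoothTransition.one_of_one_le e2.le]
    simp

theorem ibp_aux {F : ℂ → ℂ} (hF : ContDiffOn ℝ 1 F Ds)
    (hg : IntegrableOn (fun z => F z / (z * (1 - z * conj z))) Ds) :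
    (IntegrableOn (dz F) Ds → ∫ z in Ds, dz F z = 0) ∧
      (IntegrableOn (dzb F) Ds → ∫ z in Ds, dzb F z = 0) := by
  obtain ⟨M, χ, c, hd, hcc, hχ1, hcM, hsupp, hlim⟩ := exists_cutoff
  have hFc := hF.continuousOn
  have ha : ContinuousOn (dz F) Ds := (contDiffOn_dz (m := 0) isOpen_Ds hF (by simp)).continuousOn
  have hb : ContinuousOn (dzb F) Ds := (contDiffOn_dzb (m := 0) isOpen_Ds hF (by simp)).continuousOn
  have hW : ∀ n z, HasW (fun w => (χ n (w * conj w).re : ℂ)) (c n (z * conj z).re * conj z)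
      (c n (z * conj z).re * z) z := fun n z =>
    (((HasW.id' z).mul (HasW.conj' z)).real_comp (hd n _)).congr (by simp; ring) (by simp; ring)
  have hχc : ∀ n, Continuous (χ n) := fun n =>
    continuous_iff_continuousAt.2 fun t => (hd n t).continuousAt
  have hre : ∀ z : ℂ, (z * conj z).re = ‖z‖ ^ 2 := fun z => by
    rw [mul_conj, ofReal_re, normSq_eq_norm_sq]
  have key := fun n => ibp_compact (U := Ds) (F := F) (a := dz F) (b := dzb F)
    (fun z hz => ((hF.contDiffAt (Ds_nhds hz)).differentiableAt one_ne_zero).hasW) ha hb (hW n)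
    (by have := hcc n; fun_prop) (by have := hcc n; fun_prop)
  have hK : ∀ n : ℕ, tsupport (fun w : ℂ => (χ n (w * conj w).re : ℂ)) ⊆
      {z : ℂ | 1 / (n + 1 : ℝ) ≤ ‖z‖ ^ 2 ∧ ‖z‖ ^ 2 ≤ 1 - 1 / (n + 1 : ℝ)} := by
    intro n
    refine closure_minimal (fun z hz => ?_) ?_
    · rw [mem_ofPred_eq, ← hre]
      exact hsupp n _ (by simpa using hz)
    · exact (isClosed_le continuous_const (continuous_norm.pow 2)).inter
        (isClosed_le (continuous_norm.pow 2) continuous_const)
  have hKD : ∀ n : ℕ, tsupport (fun w : ℂ => (χ n (w * conj w).re : ℂ)) ⊆ Ds := by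
    intro n z hz
    obtain ⟨h1, h2⟩ := hK n hz
    have h3 : (0 : ℝ) < 1 / (n + 1 : ℝ) := by positivity
    refine ⟨?_, ?_⟩
    · rintro rfl; simp only [norm_zero] at h1; linarith
    · by_contra h; nlinarith [not_lt.1 h]
  have hKc : ∀ n : ℕ, HasCompactSupport (fun w : ℂ => (χ n (w * conj w).re : ℂ)) := fun n =>
    (isCompact_closedBall (0 : ℂ) 1).of_isClosed_subset (isClosed_tsupport _)
      ((hKD n).trans (Ds_subset.trans ball_subset_closedBall))
  have main : ∀ (d e : ℂ → ℂ), ContinuousOn d Ds → Continuous e → (∀ z, ‖e z‖ = ‖z‖) →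
      IntegrableOn d Ds →
      (∀ n, ∫ z in Ds, (F z * (c n (z * conj z).re * e z) + d z * (χ n (z * conj z).re : ℂ)) = 0) →
      ∫ z in Ds, d z = 0 := by
    intro d e hd' he hen hdi h
    have hT := tendsto_integral_of_dominated_convergence (μ := volume.restrict Ds)
      (F := fun n z => F z * (c n (z * conj z).re * e z) + d z * (χ n (z * conj z).re : ℂ))
      (f := d) (fun z => M * ‖F z / (z * (1 - z * conj z))‖ + ‖d z‖)
      (fun n => ContinuousOn.aestronglyMeasurable (by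
        have := hcc n; have := hχc n
        exact (hFc.mul (by fun_prop)).add (hd'.mul (by fun_prop))) measurableSet_Ds)
      ((hg.norm.const_mul M).add hdi.norm)
      (fun n => ae_Ds fun z hz => ?_) (ae_Ds fun z hz => ?_)
    · simp only [h] at hT
      exact (tendsto_nhds_unique tendsto_const_nhds hT).symm
    · have h0 : 0 < ‖z‖ := norm_pos_iff.2 hz.1
      have h1 : ‖z‖ ^ 2 < 1 := pow_lt_one₀ (norm_nonneg _) hz.2 two_ne_zero
      refine norm_add_le_of_le ?_ ?_
      · have e1 : ‖1 - z * conj z‖ = 1 - ‖z‖ ^ 2 := by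
          rw [mul_conj, normSq_eq_norm_sq, ← ofReal_one, ← ofReal_sub, norm_real,
            Real.norm_of_nonneg (by linarith)]
        have e2 := hcM n _ (pow_pos h0 2) h1
        rw [norm_mul, norm_mul, norm_real, hre, hen, norm_div, norm_mul, e1, Real.norm_eq_abs]
        calc ‖F z‖ * (|c n (‖z‖ ^ 2)| * ‖z‖)
            ≤ ‖F z‖ * (M / (‖z‖ ^ 2 * (1 - ‖z‖ ^ 2)) * ‖z‖) := by gcongr
          _ = _ := by field_simp
      · rw [norm_mul, norm_real, Real.norm_eq_abs]
        exact mul_le_of_le_one_right (norm_nonneg _) (hχ1 _ _)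
    · have h0 : 0 < ‖z‖ := norm_pos_iff.2 hz.1
      have h1 : ‖z‖ ^ 2 < 1 := pow_lt_one₀ (norm_nonneg _) hz.2 two_ne_zero
      refine tendsto_const_nhds.congr' ?_
      filter_upwards [hlim _ (pow_pos h0 2) h1] with n hn
      rw [hre, hn.1, hn.2]; simp
  exact ⟨fun hi => main _ _ ha continuous_conj (by simp) hi fun n => (key n (hKc n) (hKD n)).1,
    fun hi => main _ _ hb continuous_id (by simp) hi fun n => (key n (hKc n) (hKD n)).2⟩

/-- integration by parts on the punctured disc, for the derivative in `z` -/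
theorem ibp_a {F a : ℂ → ℂ} (hF : ContDiffOn ℝ 1 F Ds) (ha : ∀ z ∈ Ds, ∃ b, HasW F (a z) b z)
    (hai : L1 a) (hg : L1 fun z => F z / z) :
    ∫ z in Ds, ((1 - z * conj z) * a z - conj z * F z) = 0 := by
  have e : ∀ z ∈ Ds, dz (fun z => (1 - z * conj z) * F z) z =
      (1 - z * conj z) * a z - conj z * F z := by
    intro z hz
    obtain ⟨b, hb⟩ := ha z hz
    rw [(((HasW.const 1 z).sub ((HasW.id' z).mul (HasW.conj' z))).mul hb).dz_eq]; ring
  have hi : L1 fun z => (1 - z * conj z) * a z - conj z * F z :=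
    (hai.bd_mul (Bd.of_continuous (by fun_prop))).sub
      ((hg.bd_mul (Bd.of_continuous (F := fun z => conj z * z) (by fun_prop))).congr
        fun z hz => by have := hz.1; field_simp)
  rw [← setIntegral_congr_fun measurableSet_Ds e]
  refine (ibp_aux (by fun_prop) (hg.congr fun z hz => ?_).2).1 (hi.congr e).2
  have := hz.1
  have := Ds_one_sub_ne hz
  field_simp

/-- integration by parts on the punctured disc, for the derivative in `conj z` -/
theorem ibp_b {F b : ℂ → ℂ} (hF : ContDiffOn ℝ 1 F Ds) (hb : ∀ z ∈ Ds, ∃ a, HasW F a (b z) z)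
    (hbi : L1 b) (hg : L1 fun z => F z / z) :
    ∫ z in Ds, ((1 - z * conj z) * b z - z * F z) = 0 := by
  have e : ∀ z ∈ Ds, dzb (fun z => (1 - z * conj z) * F z) z =
      (1 - z * conj z) * b z - z * F z := by
    intro z hz
    obtain ⟨a, ha⟩ := hb z hz
    rw [(((HasW.const 1 z).sub ((HasW.id' z).mul (HasW.conj' z))).mul ha).dzb_eq]; ring
  have hi : L1 fun z => (1 - z * conj z) * b z - z * F z :=
    (hbi.bd_mul (Bd.of_continuous (by fun_prop))).sub
      ((hg.bd_mul (Bd.of_continuous (F := fun z => z * z) (by fun_prop))).congr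
        fun z hz => by have := hz.1; field_simp)
  rw [← setIntegral_congr_fun measurableSet_Ds e]
  refine (ibp_aux (by fun_prop) (hg.congr fun z hz => ?_).2).2 (hi.congr e).2
  have := hz.1
  have := Ds_one_sub_ne hz
  field_simp

end Vale.Agent.P071
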