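import Vale.Agent.P071.Defs

open MeasureTheory Set Metric Filter Topology
open scoped ContDiff RealInnerProductSpace ENNReal

namespace Vale.Agent.P071

namespace Poinc

/-- Test functions supported in `A`. -/
def IsTest (A : Set ℂ) (φ : ℂ → ℝ) : Prop :=
  ContDiff ℝ ∞ φ ∧ HasCompactSupport φ ∧ tsupport φ ⊆ A

lemma IsTest.memLp {A : Set ℂ} {φ : ℂ → ℝ} (h : IsTest A φ) (μ : Measure ℂ)
    [IsFiniteMeasureOnCompacts μ] : MemLp φ 2 μ :=
  h.1.continuous.memLp_of_hasCompactSupport h.2.1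

/-- Classes in `L²(A)` of test functions supported in `A`. -/
def testSub (A : Set ℂ) : Submodule ℝ (Lp ℝ 2 (volume.restrict A)) where
  carrier := {w | ∃ φ, IsTest A φ ∧ (w : ℂ → ℝ) =ᵐ[volume.restrict A] φ}
  zero_mem' := ⟨0, ⟨contDiff_const, HasCompactSupport.zero, by simp⟩, Lp.coeFn_zero _ _ _⟩
  add_mem' := by
    rintro a b ⟨φ, hφ, ha⟩ ⟨ψ, hψ, hb⟩
    refine ⟨φ + ψ, ⟨hφ.1.add hψ.1, hφ.2.1.add hψ.2.1,
      (tsupport_add φ ψ).trans (union_subset hφ.2.2 hψ.2.2)⟩, ?_⟩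
    filter_upwards [Lp.coeFn_add a b, ha, hb] with x h1 h2 h3
    rw [h1]; simp [h2, h3]
  smul_mem' := by
    rintro c a ⟨φ, hφ, ha⟩
    refine ⟨c • φ, ⟨hφ.1.const_smul c, hφ.2.1.smul_left (f := fun _ => c),
      (tsupport_smul_subset_right (fun _ => c) φ).trans hφ.2.2⟩, ?_⟩
    filter_upwards [Lp.coeFn_smul c a, ha] with x h1 h2
    rw [h1]; simp [h2]

lemma testSub_dense {A : Set ℂ} (hA : IsOpen A) : Dense (testSub A : Set (Lp ℝ 2 (volume.restrict A))) := by
  rw [Submodule.dense_iff_topologicalClosure_eq_top, Submodule.topologicalClosure_eq_top_iff,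
    Submodule.eq_bot_iff]
  intro w hw
  rw [Submodule.mem_orthogonal] at hw
  have hloc : LocallyIntegrableOn (w : ℂ → ℝ) A (volume.restrict A) :=
    ((Lp.memLp w).locallyIntegrable (by norm_num)).locallyIntegrableOn A
  have h0 := hA.ae_eq_zero_of_integral_contDiff_smul_eq_zero hloc (fun g h1 h2 h3 => by
    have hg : IsTest A g := ⟨h1, h2, h3⟩
    have := hw ((hg.memLp _).toLp g) ⟨g, hg, MemLp.coeFn_toLp _⟩
    rw [L2.inner_def] at this
    rw [← this]
    refine integral_congr_ae ?_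
    filter_upwards [MemLp.coeFn_toLp (hg.memLp (volume.restrict A))] with x hx
    rw [hx]; simp [mul_comm])
  ext1
  filter_upwards [h0, ae_restrict_mem hA.measurableSet, Lp.coeFn_zero ℝ 2 (volume.restrict A)]
    with x h1 h2 h3
  rw [h3, h1 h2]; rfl

lemma dual {A : Set ℂ} (hA : IsOpen A) {u : ℂ → ℝ} (hu : MemLp u 2 (volume.restrict A)) {c : ℝ}
    (h : ∀ φ, IsTest A φ → 2 * ∫ x in A, u x * φ x ≤ c + ∫ x in A, φ x ^ 2) :
    ∫ x in A, u x ^ 2 ≤ c := by
  set U := hu.toLp u with hU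
  have hcl : IsClosed {w : Lp ℝ 2 (volume.restrict A) | 2 * ⟪U, w⟫ ≤ c + ⟪w, w⟫} :=
    isClosed_le (by fun_prop) (by fun_prop)
  have hsub : (testSub A : Set (Lp ℝ 2 (volume.restrict A))) ⊆
      {w | 2 * ⟪U, w⟫ ≤ c + ⟪w, w⟫} := by
    rintro w ⟨φ, hφ, hw⟩
    have e1 : ⟪U, w⟫ = ∫ x in A, u x * φ x := by
      rw [L2.inner_def]
      refine integral_congr_ae ?_
      filter_upwards [MemLp.coeFn_toLp hu, hw] with x h1 h2
      rw [hU, h1, h2]; simp [mul_comm]
    have e2 : ⟪w, w⟫ = ∫ x in A, φ x ^ 2 := by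
      rw [L2.inner_def]
      refine integral_congr_ae ?_
      filter_upwards [hw] with x h2
      rw [h2]; simp
    show 2 * ⟪U, w⟫ ≤ c + ⟪w, w⟫
    rw [e1, e2]; exact h φ hφ
  have hU' : U ∈ {w : Lp ℝ 2 (volume.restrict A) | 2 * ⟪U, w⟫ ≤ c + ⟪w, w⟫} :=
    hcl.closure_subset_iff.2 hsub (testSub_dense hA U)
  have e : ⟪U, U⟫ = ∫ x in A, u x ^ 2 := by
    rw [L2.inner_def]
    refine integral_congr_ae ?_
    filter_upwards [MemLp.coeFn_toLp hu] with x h1
    rw [hU, h1]; simp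
  have : 2 * ⟪U, U⟫ ≤ c + ⟪U, U⟫ := hU'
  linarith

lemma IsTest.shift {A Ω : Set ℂ} {φ : ℂ → ℝ} (hφ : IsTest A φ) {a : ℂ}
    (hs : ∀ x ∈ A, x + a ∈ Ω) : IsTest Ω (fun y => φ (y - a)) := by
  refine ⟨hφ.1.comp (contDiff_id.sub contDiff_const),
    hφ.2.1.comp_homeomorph (Homeomorph.subRight a), ?_⟩
  intro y hy
  have e : tsupport (fun y => φ (y - a)) = (Homeomorph.subRight a) ⁻¹' tsupport φ :=
    tsupport_comp_eq_preimage φ (Homeomorph.subRight a)
  rw [e] at hy
  have := hs _ (hφ.2.2 hy)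
  simpa using this

lemma IsTest.memLp_fderiv {A : Set ℂ} {φ : ℂ → ℝ} (h : IsTest A φ) (e : ℂ) (μ : Measure ℂ)
    [IsFiniteMeasureOnCompacts μ] : MemLp (fun z => fderiv ℝ φ z e) 2 μ := by
  have hc : Continuous (fun z => fderiv ℝ φ z e) :=
    (h.1.continuous_fderiv (by simp)).clm_apply continuous_const
  exact hc.memLp_of_hasCompactSupport (h.2.1.fderiv_apply ℝ e)

lemma weak_dir {Ω : Set ℂ} {v g₁ g₂ : ℂ → ℝ} (hv : MemH1 Ω v g₁ g₂) {ψ : ℂ → ℝ}
    (hψ : IsTest Ω ψ) (h : ℂ) :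
    -(2 * ∫ y in Ω, v y * fderiv ℝ ψ y h) ≤
      ‖h‖ ^ 2 * (∫ z in Ω, (g₁ z ^ 2 + g₂ z ^ 2)) + ∫ y, ψ y ^ 2 := by
  obtain ⟨m0, m1, m2, w1, w2⟩ := hv
  have hψ2 := hψ.memLp (volume.restrict Ω)
  have e0 : ∀ y, v y * fderiv ℝ ψ y h =
      h.re * (v y * fderiv ℝ ψ y 1) + h.im * (v y * fderiv ℝ ψ y Complex.I) := by
    intro y
    have : h = h.re • (1 : ℂ) + h.im • Complex.I := by
      apply Complex.ext <;> simp
    conv_lhs => rw [this, map_add, map_smul, map_smul]
    simp only [smul_eq_mul]; ring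
  have i1 : Integrable (fun y => v y * fderiv ℝ ψ y 1) (volume.restrict Ω) :=
    m0.integrable_mul (hψ.memLp_fderiv 1 _)
  have i2 : Integrable (fun y => v y * fderiv ℝ ψ y Complex.I) (volume.restrict Ω) :=
    m0.integrable_mul (hψ.memLp_fderiv _ _)
  have j1 : Integrable (fun y => g₁ y * ψ y) (volume.restrict Ω) := m1.integrable_mul hψ2
  have j2 : Integrable (fun y => g₂ y * ψ y) (volume.restrict Ω) := m2.integrable_mul hψ2
  have k1 : Integrable (fun y => g₁ y ^ 2 + g₂ y ^ 2) (volume.restrict Ω) :=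
    m1.integrable_sq.add m2.integrable_sq
  have k2 : Integrable (fun y => ψ y ^ 2) (volume.restrict Ω) := hψ2.integrable_sq
  have e1 : -(2 * ∫ y in Ω, v y * fderiv ℝ ψ y h) =
      ∫ y in Ω, (2 * h.re * (g₁ y * ψ y) + 2 * h.im * (g₂ y * ψ y)) := by
    simp_rw [e0]
    rw [integral_add (i1.const_mul _) (i2.const_mul _), integral_const_mul, integral_const_mul,
      w1 ψ hψ.1 hψ.2.1 hψ.2.2, w2 ψ hψ.1 hψ.2.1 hψ.2.2,
      integral_add (j1.const_mul _) (j2.const_mul _), integral_const_mul, integral_const_mul]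
    ring
  have e2 : ∫ y in Ω, ψ y ^ 2 ≤ ∫ y, ψ y ^ 2 :=
    setIntegral_le_integral (hψ.memLp volume).integrable_sq
      (Eventually.of_forall fun y => sq_nonneg _)
  have e3 : ∫ y in Ω, (2 * h.re * (g₁ y * ψ y) + 2 * h.im * (g₂ y * ψ y)) ≤
      ∫ y in Ω, (‖h‖ ^ 2 * (g₁ y ^ 2 + g₂ y ^ 2) + ψ y ^ 2) := by
    refine integral_mono ((j1.const_mul _).add (j2.const_mul _)) ((k1.const_mul _).add k2) ?_
    intro y
    have : ‖h‖ ^ 2 = h.re ^ 2 + h.im ^ 2 := by
      rw [Complex.sq_norm, Complex.normSq_apply]; ring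
    simp only [this]
    nlinarith [sq_nonneg (h.re * g₁ y + h.im * g₂ y - ψ y), sq_nonneg (h.re * g₂ y - h.im * g₁ y)]
  rw [integral_add (k1.const_mul _) k2, integral_const_mul] at e3
  linarith

lemma transl_test {Ω A : Set ℂ} (hb : Bornology.IsBounded Ω) {v g₁ g₂ : ℂ → ℝ}
    (hv : MemH1 Ω v g₁ g₂) {h : ℂ} {φ : ℂ → ℝ} (hφ : IsTest A φ)
    (hseg : ∀ x ∈ A, ∀ t ∈ Icc (0 : ℝ) 1, x + t • h ∈ Ω) :
    2 * ((∫ y in Ω, v y * φ (y - h)) - ∫ y in Ω, v y * φ y) ≤
      ‖h‖ ^ 2 * (∫ z in Ω, (g₁ z ^ 2 + g₂ z ^ 2)) + ∫ y, φ y ^ 2 := by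
  have : IsFiniteMeasure (volume.restrict Ω) := ⟨by simpa using hb.measure_lt_top⟩
  have hvi : Integrable v (volume.restrict Ω) := hv.1.integrable (by norm_num)
  have hdc : Continuous (fderiv ℝ φ) := hφ.1.continuous_fderiv (by simp)
  obtain ⟨M, hM⟩ := (hφ.2.1.fderiv ℝ).exists_bound_of_continuous hdc
  obtain ⟨M0, hM0⟩ := hφ.2.1.exists_bound_of_continuous hφ.1.continuous
  have hd : Differentiable ℝ φ := hφ.1.differentiable (by simp)
  set F : ℝ → ℝ := fun t => ∫ y in Ω, v y * φ (y - t • h) with hF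
  set F' : ℝ → ℝ := fun t => ∫ y in Ω, -(v y * fderiv ℝ φ (y - t • h) h) with hF'
  have hder : ∀ t, HasDerivAt F (F' t) t := by
    intro t
    refine (hasDerivAt_integral_of_dominated_loc_of_deriv_le (μ := volume.restrict Ω)
      (F := fun t y => v y * φ (y - t • h))
      (F' := fun t y => -(v y * fderiv ℝ φ (y - t • h) h))
      (bound := fun y => ‖v y‖ * (M * ‖h‖)) (s := univ) univ_mem ?_ ?_ ?_ ?_ ?_ ?_).2
    · refine Eventually.of_forall fun s => hvi.1.mul ?_
      exact (hφ.1.continuous.comp (continuous_id.sub continuous_const)).aestronglyMeasurable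
    · refine hvi.mul_bdd (c := M0) ?_ (Eventually.of_forall fun y => hM0 _)
      exact (hφ.1.continuous.comp (continuous_id.sub continuous_const)).aestronglyMeasurable
    · refine (hvi.1.mul ?_).neg
      exact ((hdc.comp (continuous_id.sub continuous_const)).clm_apply
        continuous_const).aestronglyMeasurable
    · refine Eventually.of_forall fun y s _ => ?_
      rw [norm_neg, norm_mul]
      gcongr
      exact ((fderiv ℝ φ (y - s • h)).le_opNorm h).trans (by gcongr; exact hM _)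
    · exact hvi.norm.mul_const _
    · refine Eventually.of_forall fun y s _ => ?_
      have h1 : HasDerivAt (fun s : ℝ => y - s • h) (-h) s := by
        simpa using ((hasDerivAt_id s).smul_const h).const_sub y
      have h2 := ((hd (y - s • h)).hasFDerivAt.comp_hasDerivAt s h1).const_mul (v y)
      simpa using h2
  obtain ⟨c, hc, hc'⟩ := exists_hasDerivAt_eq_slope F F' zero_lt_one
    (fun t _ => (hder t).continuousAt.continuousWithinAt) (fun t _ => hder t)
  have hψ : IsTest Ω (fun y => φ (y - c • h)) :=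
    hφ.shift fun x hx => hseg x hx c (Ioo_subset_Icc_self hc)
  have key := weak_dir hv hψ h
  have e1 : ∫ y, φ (y - c • h) ^ 2 = ∫ y, φ y ^ 2 :=
    integral_sub_right_eq_self (fun y => φ y ^ 2) (c • h)
  have e2 : F' c = -∫ y in Ω, v y * fderiv ℝ (fun y => φ (y - c • h)) y h := by
    rw [← integral_neg]
    simp only [hF', fderiv_comp_sub]
  rw [e1] at key
  have e3 : F 1 - F 0 = (∫ y in Ω, v y * φ (y - h)) - ∫ y in Ω, v y * φ y := by
    simp [hF]
  rw [← e3]
  have : F' c = F 1 - F 0 := by simpa using hc'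
  linarith

/-- Translation bound: the only property of an `H¹` function used below. -/
def Tr (Ω : Set ℂ) (V : ℂ → ℝ) (E : ℝ) : Prop :=
  Measurable V ∧ MemLp V 2 volume ∧ 0 ≤ E ∧ ∀ A : Set ℂ, IsOpen A → ∀ h : ℂ,
    (∀ x ∈ A, ∀ t ∈ Icc (0 : ℝ) 1, x + t • h ∈ Ω) →
      ∫ x in A, (V (x + h) - V x) ^ 2 ≤ ‖h‖ ^ 2 * E

lemma exists_tr {Ω : Set ℂ} (ho : IsOpen Ω) (hb : Bornology.IsBounded Ω) {v g₁ g₂ : ℂ → ℝ}
    (hv : MemH1 Ω v g₁ g₂) :
    ∃ V, V =ᵐ[volume.restrict Ω] v ∧ Tr Ω V (∫ z in Ω, (g₁ z ^ 2 + g₂ z ^ 2)) := by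
  have hm := hv.1.1
  set w := hm.mk v with hw
  have hwv : w =ᵐ[volume.restrict Ω] v := hm.ae_eq_mk.symm
  have hV2 : MemLp (Ω.indicator w) 2 volume :=
    (memLp_indicator_iff_restrict ho.measurableSet).2 (hv.1.ae_eq hwv.symm)
  have hint : ∀ ψ : ℂ → ℝ, ∫ y, Ω.indicator w y * ψ y = ∫ y in Ω, v y * ψ y := by
    intro ψ
    have : ∫ y in Ω, w y * ψ y = ∫ y in Ω, v y * ψ y :=
      integral_congr_ae (by filter_upwards [hwv] with y hy; rw [hy])
    rw [← this, ← integral_indicator ho.measurableSet]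
    congr 1; ext y
    by_cases hy : y ∈ Ω <;> simp [hy]
  refine ⟨Ω.indicator w, ?_, hm.stronglyMeasurable_mk.measurable.indicator ho.measurableSet, hV2,
    integral_nonneg fun z => by positivity, ?_⟩
  · filter_upwards [hwv, ae_restrict_mem ho.measurableSet] with y h1 h2
    simp [h1, h2]
  intro A hA h hseg
  set V := Ω.indicator w with hV
  have hVh : MemLp (fun x => V (x + h)) 2 volume :=
    hV2.comp_measurePreserving (measurePreserving_add_right volume h)
  refine dual hA ((hVh.sub hV2).restrict A) fun φ hφ => ?_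
  have hz : ∀ x, x ∉ A → φ x = 0 := fun x hx =>
    image_eq_zero_of_notMem_tsupport fun h' => hx (hφ.2.2 h')
  have e1 : ∫ x in A, φ x ^ 2 = ∫ x, φ x ^ 2 :=
    setIntegral_eq_integral_of_forall_compl_eq_zero fun x hx => by simp [hz x hx]
  have e2 : ∫ x in A, (V (x + h) - V x) * φ x = ∫ x, (V (x + h) - V x) * φ x :=
    setIntegral_eq_integral_of_forall_compl_eq_zero fun x hx => by simp [hz x hx]
  have e3 : ∫ x, V (x + h) * φ x = ∫ y, V y * φ (y - h) := by
    rw [← integral_add_right_eq_self (fun y => V y * φ (y - h)) h]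
    simp
  have e4 : ∫ x, (V (x + h) - V x) * φ x =
      (∫ y in Ω, v y * φ (y - h)) - ∫ y in Ω, v y * φ y := by
    have i1 : Integrable (fun x => V (x + h) * φ x) := hVh.integrable_mul (hφ.memLp _)
    have i2 : Integrable (fun x => V x * φ x) := hV2.integrable_mul (hφ.memLp _)
    simp_rw [sub_mul]
    rw [integral_sub i1 i2, e3, hint, hint]
  have := transl_test hb hv hφ hseg
  show 2 * ∫ x in A, (V (x + h) - V x) * φ x ≤ _
  rw [e1, e2, e4]
  exact this

/-- `S` satisfies a Poincaré inequality relative to `Ω`. -/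
def Good (Ω S : Set ℂ) : Prop :=
  ∃ C : ℝ, 0 ≤ C ∧ ∀ V E, Tr Ω V E → ∃ c : ℝ, ∫ x in S, (V x - c) ^ 2 ≤ C * E

lemma integrableOn_sq {V : ℂ → ℝ} (hV : MemLp V 2 volume) {S : Set ℂ} (hS : volume S ≠ ⊤)
    (c : ℝ) : IntegrableOn (fun x => (V x - c) ^ 2) S := by
  have : IsFiniteMeasure (volume.restrict S) := ⟨by simpa [lt_top_iff_ne_top] using hS⟩
  exact ((hV.restrict S).sub (memLp_const c)).integrable_sq

lemma good_of_seg {Ω A B : Set ℂ} (hA : IsOpen A) (hB : IsOpen B)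
    (hAb : Bornology.IsBounded A) (hBb : Bornology.IsBounded B) (hne : B.Nonempty)
    (hseg : ∀ x ∈ A, ∀ y ∈ B, ∀ t ∈ Icc (0 : ℝ) 1, x + t • (y - x) ∈ Ω) : Good Ω A := by
  obtain ⟨R, hR⟩ := (hBb.sub hAb).subset_closedBall 0
  have hB0 : volume B ≠ 0 := (hB.measure_pos volume hne).ne'
  have hB1 : volume B ≠ ⊤ := hBb.measure_lt_top.ne
  have hball : volume (closedBall (0 : ℂ) R) ≠ ⊤ := measure_closedBall_lt_top.ne
  refine ⟨R ^ 2 * (volume (closedBall (0 : ℂ) R)).toReal / (volume B).toReal, by positivity, ?_⟩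
  rintro V E ⟨hVm, hV2, hE, htr⟩
  set G : ℂ → ℂ → ℝ≥0∞ := fun y x => ENNReal.ofReal ((V y - V x) ^ 2) with hG
  have hGm : Measurable (Function.uncurry G) := by
    simp only [hG]
    refine ENNReal.measurable_ofReal.comp ?_
    exact ((hVm.comp measurable_fst).sub (hVm.comp measurable_snd)).pow_const 2
  have hI : ∫⁻ y in B, ∫⁻ x in A, G y x ≤
      ENNReal.ofReal (R ^ 2 * E) * volume (closedBall (0 : ℂ) R) := by
    rw [lintegral_lintegral_swap hGm.aemeasurable]
    have e1 : ∀ x, ∫⁻ y in B, G y x = ∫⁻ h, B.indicator (fun y => G y x) (x + h) := by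
      intro x
      rw [lintegral_add_left_eq_self (fun y => B.indicator (fun y => G y x) y) x,
        lintegral_indicator hB.measurableSet]
    simp_rw [e1]
    have hm2 : Measurable (Function.uncurry fun x h : ℂ =>
        B.indicator (fun y => G y x) (x + h)) := by
      have : (Function.uncurry fun x h : ℂ => B.indicator (fun y => G y x) (x + h)) =
          ((fun p : ℂ × ℂ => p.1 + p.2) ⁻¹' B).indicator
            (fun p => Function.uncurry G (p.1 + p.2, p.1)) := by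
        ext p
        by_cases hp : p.1 + p.2 ∈ B <;> simp [Function.uncurry, hp]
      rw [this]
      exact (hGm.comp ((measurable_fst.add measurable_snd).prodMk measurable_fst)).indicator
        ((measurable_fst.add measurable_snd) hB.measurableSet)
    rw [lintegral_lintegral_swap hm2.aemeasurable, ← lintegral_indicator_const
      measurableSet_closedBall]
    refine lintegral_mono fun h => ?_
    have hBo : IsOpen ((fun x => x + h) ⁻¹' B) := hB.preimage (by fun_prop)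
    have hAo : IsOpen ((fun x => x + h) ⁻¹' B ∩ A) := hBo.inter hA
    have e2 : ∫⁻ x in A, B.indicator (fun y => G y x) (x + h) =
        ∫⁻ x in (fun x => x + h) ⁻¹' B ∩ A, G (x + h) x := by
      rw [← Measure.restrict_restrict hBo.measurableSet, ← lintegral_indicator hBo.measurableSet]
      congr 1
    show ∫⁻ x in A, B.indicator (fun y => G y x) (x + h) ≤ _
    rw [e2]
    by_cases hh : h ∈ closedBall (0 : ℂ) R
    · rw [indicator_of_mem hh]
      have hVh : MemLp (fun x => V (x + h)) 2 volume :=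
        hV2.comp_measurePreserving (measurePreserving_add_right volume h)
      have hi : Integrable (fun x => (V (x + h) - V x) ^ 2)
          (volume.restrict ((fun x => x + h) ⁻¹' B ∩ A)) :=
        ((hVh.sub hV2).restrict _).integrable_sq
      simp only [hG]
      rw [← ofReal_integral_eq_lintegral_ofReal hi (Eventually.of_forall fun x => sq_nonneg _)]
      refine ENNReal.ofReal_le_ofReal ((htr _ hAo h ?_).trans ?_)
      · intro x hx t ht
        have := hseg x hx.2 (x + h) hx.1 t ht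
        simpa using this
      · have : ‖h‖ ≤ R := by simpa using hh
        gcongr
    · have : (fun x => x + h) ⁻¹' B ∩ A = ∅ := by
        refine eq_empty_of_forall_notMem fun x hx => hh (hR ?_)
        exact ⟨x + h, hx.1, x, hx.2, by simp⟩
      rw [this]; simp
  obtain ⟨y, -, hy⟩ := exists_le_setLAverage (μ := volume) (s := B)
    (f := fun y => ∫⁻ x in A, G y x) hB0 hB1 (hGm.lintegral_prod_right').aemeasurable
  refine ⟨V y, ?_⟩
  rw [setLAverage_eq] at hy
  have hi := integrableOn_sq hV2 hAb.measure_lt_top.ne (V y)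
  have e3 : ENNReal.ofReal (∫ x in A, (V x - V y) ^ 2) = ∫⁻ x in A, G y x := by
    rw [ofReal_integral_eq_lintegral_ofReal hi (Eventually.of_forall fun x => sq_nonneg _)]
    congr 1; ext x; simp only [hG]; congr 1; ring
  have h4 : ENNReal.ofReal (∫ x in A, (V x - V y) ^ 2) ≤
      ENNReal.ofReal (R ^ 2 * E) * volume (closedBall (0 : ℂ) R) / volume B := by
    rw [e3]; exact hy.trans (by gcongr)
  have h5 := ENNReal.toReal_mono (ENNReal.div_ne_top
    (ENNReal.mul_ne_top ENNReal.ofReal_ne_top hball) hB0) h4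
  rw [ENNReal.toReal_ofReal (integral_nonneg fun x => sq_nonneg _), ENNReal.toReal_div,
    ENNReal.toReal_mul, ENNReal.toReal_ofReal (by positivity)] at h5
  refine h5.trans (le_of_eq ?_)
  ring

lemma Good.union {Ω S T : Set ℂ} (hS : IsOpen S) (hT : IsOpen T) (hSb : Bornology.IsBounded S)
    (hTb : Bornology.IsBounded T) (hne : (S ∩ T).Nonempty) (h1 : Good Ω S) (h2 : Good Ω T) :
    Good Ω (S ∪ T) := by
  obtain ⟨C₁, hC₁, h1⟩ := h1
  obtain ⟨C₂, hC₂, h2⟩ := h2
  have hS1 : volume S ≠ ⊤ := hSb.measure_lt_top.ne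
  have hT1 : volume T ≠ ⊤ := hTb.measure_lt_top.ne
  have hST1 : volume (S ∩ T) ≠ ⊤ := (hSb.subset inter_subset_left).measure_lt_top.ne
  have hm : 0 < volume.real (S ∩ T) :=
    ENNReal.toReal_pos ((hS.inter hT).measure_pos volume hne).ne' hST1
  set m := volume.real (S ∩ T) with hmdef
  set n := volume.real T with hndef
  have hn : 0 ≤ n := measureReal_nonneg
  refine ⟨C₁ + 2 * C₂ + 2 * n * (2 * (C₁ + C₂) / m), by positivity, ?_⟩
  intro V E htr
  obtain ⟨c₁, hc₁⟩ := h1 V E htr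
  obtain ⟨c₂, hc₂⟩ := h2 V E htr
  obtain ⟨-, hV2, hE, -⟩ := htr
  have nn : ∀ (c : ℝ) (μ : Measure ℂ), 0 ≤ᵐ[μ] fun x => (V x - c) ^ 2 :=
    fun c μ => Eventually.of_forall fun x => sq_nonneg _
  have a1 : ∫ x in S ∩ T, (V x - c₁) ^ 2 ≤ ∫ x in S, (V x - c₁) ^ 2 :=
    setIntegral_mono_set (integrableOn_sq hV2 hS1 c₁) (nn _ _) inter_subset_left.eventuallyLE
  have a2 : ∫ x in S ∩ T, (V x - c₂) ^ 2 ≤ ∫ x in T, (V x - c₂) ^ 2 :=
    setIntegral_mono_set (integrableOn_sq hV2 hT1 c₂) (nn _ _) inter_subset_right.eventuallyLE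
  have a3 : ∫ x in S ∩ T, (c₁ - c₂) ^ 2 ≤
      ∫ x in S ∩ T, (2 * (V x - c₁) ^ 2 + 2 * (V x - c₂) ^ 2) := by
    refine integral_mono (integrableOn_const hST1)
      (((integrableOn_sq hV2 hST1 c₁).const_mul 2).add
        ((integrableOn_sq hV2 hST1 c₂).const_mul 2)) fun x => ?_
    nlinarith [sq_nonneg (2 * V x - c₁ - c₂)]
  rw [integral_add ((integrableOn_sq hV2 hST1 c₁).const_mul 2)
    ((integrableOn_sq hV2 hST1 c₂).const_mul 2), integral_const_mul, integral_const_mul,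
    setIntegral_const, smul_eq_mul] at a3
  have a4 : (c₁ - c₂) ^ 2 ≤ 2 * (C₁ + C₂) / m * E := by
    rw [div_mul_eq_mul_div, le_div_iff₀ hm]
    nlinarith
  have a5 : ∫ x in T, (V x - c₁) ^ 2 ≤ ∫ x in T, (2 * (V x - c₂) ^ 2 + 2 * (c₁ - c₂) ^ 2) := by
    refine integral_mono (integrableOn_sq hV2 hT1 c₁)
      (((integrableOn_sq hV2 hT1 c₂).const_mul 2).add (integrableOn_const hT1)) fun x => ?_
    nlinarith [sq_nonneg (V x + c₁ - 2 * c₂)]
  rw [integral_add ((integrableOn_sq hV2 hT1 c₂).const_mul 2) (integrableOn_const hT1),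
    integral_const_mul, setIntegral_const, smul_eq_mul] at a5
  have a6 : ∫ x in S ∪ T, (V x - c₁) ^ 2 ≤
      (∫ x in S, (V x - c₁) ^ 2) + ∫ x in T, (V x - c₁) ^ 2 := by
    rw [← integral_add_measure (integrableOn_sq hV2 hS1 c₁) (integrableOn_sq hV2 hT1 c₁)]
    exact integral_mono_measure (Measure.restrict_union_le S T) (nn _ _)
      (Integrable.add_measure (integrableOn_sq hV2 hS1 c₁) (integrableOn_sq hV2 hT1 c₁))
  refine ⟨c₁, ?_⟩
  have a7 : n * (2 * (c₁ - c₂) ^ 2) ≤ 2 * n * (2 * (C₁ + C₂) / m) * E := by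
    have := mul_le_mul_of_nonneg_left a4 hn
    nlinarith
  nlinarith

lemma good_local {Ω : Set ℂ} (ho : IsOpen Ω) (hL : HasLipschitzBoundary Ω) {p : ℂ}
    (hp : p ∈ closure Ω) : ∃ ρ, 0 < ρ ∧ Good Ω (Ω ∩ ball p ρ) := by
  by_cases hpΩ : p ∈ Ω
  · obtain ⟨ρ, hρ, hsub⟩ := Metric.isOpen_iff.1 ho p hpΩ
    refine ⟨ρ, hρ, good_of_seg (B := ball p ρ) (ho.inter isOpen_ball) isOpen_ball
      (isBounded_ball.subset inter_subset_right) isBounded_ball (nonempty_ball.2 hρ) ?_⟩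
    intro x hx y hy t ht
    exact hsub ((convex_ball p ρ).add_smul_sub_mem hx.2 hy ht)
  have hfr : p ∈ frontier Ω := ⟨hp, fun h => hpΩ (interior_subset h)⟩
  obtain ⟨c, r, K, γ, hc, hr, hγ, hiff⟩ := hL p hfr
  have hK : (0 : ℝ) ≤ K := K.2
  set ρ := r / (4 * (K + 1)) with hρdef
  have hρ : 0 < ρ := by positivity
  have hρ1 : 4 * (K + 1) * ρ = r := by rw [hρdef]; field_simp
  have hρ2 : 4 * ρ ≤ r := by nlinarith
  set q : ℂ := p + (starRingEnd ℂ c) * Complex.I * ((r / 2 : ℝ) : ℂ) with hq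
  have hcc : c * starRingEnd ℂ c = 1 := by
    rw [Complex.mul_conj, Complex.normSq_eq_norm_sq, hc]; simp
  refine ⟨ρ, hρ, good_of_seg (B := ball q ρ) (ho.inter isOpen_ball) isOpen_ball
    (isBounded_ball.subset inter_subset_right) isBounded_ball (nonempty_ball.2 hρ) ?_⟩
  intro x hx y hy t ht
  have hx1 : x ∈ ball p r := ball_subset_ball (by linarith) hx.2
  have hqp : dist q p = r / 2 := by
    rw [dist_eq_norm, hq, add_sub_cancel_left, norm_mul, norm_mul, Complex.norm_conj, hc,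
      Complex.norm_I, Complex.norm_real, Real.norm_of_nonneg (by positivity)]
    ring
  have hy1 : y ∈ ball p r := by
    have := dist_triangle y q p
    rw [mem_ball] at hy ⊢
    linarith
  rw [hiff _ ((convex_ball p r).add_smul_sub_mem hx1 hy1 ht)]
  have hx3 := (hiff x hx1).1 hx.1
  set a := c * (x - p) with ha
  set b := c * (y - q) with hb
  have ha1 : ‖a‖ < ρ := by
    rw [ha, norm_mul, hc, one_mul, ← dist_eq_norm]; exact hx.2
  have hb1 : ‖b‖ < ρ := by
    rw [hb, norm_mul, hc, one_mul, ← dist_eq_norm]; exact hy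
  have e : c * (x + t • (y - x) - p) = a + (t : ℂ) * (b - a + Complex.I * ((r / 2 : ℝ) : ℂ)) := by
    rw [ha, hb, hq, Complex.real_smul]
    linear_combination (t : ℂ) * Complex.I * ((r / 2 : ℝ) : ℂ) * hcc
  rw [e]
  have ere : (a + (t : ℂ) * (b - a + Complex.I * ((r / 2 : ℝ) : ℂ))).re = a.re + t * (b - a).re := by
    simp
  have eim : (a + (t : ℂ) * (b - a + Complex.I * ((r / 2 : ℝ) : ℂ))).im =
      a.im + t * ((b - a).im + r / 2) := by
    simp
  rw [ere, eim]
  have hba : ‖b - a‖ ≤ 2 * ρ := (norm_sub_le b a).trans (by linarith)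
  have h1 : |(b - a).re| ≤ 2 * ρ := (Complex.abs_re_le_norm _).trans hba
  have h2 : |(b - a).im| ≤ 2 * ρ := (Complex.abs_im_le_norm _).trans hba
  have h3 := hγ.dist_le_mul (a.re + t * (b - a).re) a.re
  rw [Real.dist_eq, Real.dist_eq, add_sub_cancel_left, abs_mul, abs_of_nonneg ht.1] at h3
  have h4 := (abs_le.1 h3).2
  have h5 := (abs_le.1 h2).1
  have h6 : K * (t * |(b - a).re|) ≤ K * (t * (2 * ρ)) := by
    have := ht.1
    gcongr
  have h7 : K * (t * (2 * ρ)) ≤ t * ((b - a).im + r / 2) := by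
    have : K * (2 * ρ) ≤ (b - a).im + r / 2 := by nlinarith
    nlinarith [ht.1]
  linarith

lemma good_global {Ω : Set ℂ} (ho : IsOpen Ω) (hb : Bornology.IsBounded Ω) (hc : IsConnected Ω)
    (hL : HasLipschitzBoundary Ω) : Good Ω Ω := by
  obtain ⟨x₀, hx₀⟩ := hc.nonempty
  let P : ℂ → ℂ → Prop := fun x y => ∃ S, IsOpen S ∧ S ⊆ Ω ∧ Good Ω S ∧ x ∈ S ∧ y ∈ S
  have hP : ∀ y ∈ Ω, P x₀ y := by
    intro y hy
    refine hc.isPreconnected.induction₂' P ?_ ?_ hx₀ hy
    · intro x hx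
      obtain ⟨ρ, hρ, hg⟩ := good_local ho hL (subset_closure hx)
      have hS : IsOpen (Ω ∩ ball x ρ) := ho.inter isOpen_ball
      have hxS : x ∈ Ω ∩ ball x ρ := ⟨hx, mem_ball_self hρ⟩
      filter_upwards [mem_nhdsWithin_of_mem_nhds (hS.mem_nhds hxS)] with z hz
      exact ⟨⟨_, hS, inter_subset_left, hg, hxS, hz⟩, ⟨_, hS, inter_subset_left, hg, hz, hxS⟩⟩
    · rintro x y z - - - ⟨S, hS, hS', hSg, hxS, hyS⟩ ⟨T, hT, hT', hTg, hyT, hzT⟩
      exact ⟨S ∪ T, hS.union hT, union_subset hS' hT',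
        Good.union hS hT (hb.subset hS') (hb.subset hT') ⟨y, hyS, hyT⟩ hSg hTg,
        Or.inl hxS, Or.inr hzT⟩
  have key : ∃ S, IsOpen S ∧ S ⊆ Ω ∧ Good Ω S ∧ x₀ ∈ S ∧ Ω ∩ closure Ω ⊆ S := by
    refine hb.isCompact_closure.induction_on
      (p := fun s => ∃ S, IsOpen S ∧ S ⊆ Ω ∧ Good Ω S ∧ x₀ ∈ S ∧ Ω ∩ s ⊆ S) ?_ ?_ ?_ ?_
    · obtain ⟨S, h1, h2, h3, h4, -⟩ := hP x₀ hx₀
      exact ⟨S, h1, h2, h3, h4, by simp⟩
    · rintro s t hst ⟨S, h1, h2, h3, h4, h5⟩
      exact ⟨S, h1, h2, h3, h4, (inter_subset_inter_right _ hst).trans h5⟩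
    · rintro s t ⟨S, h1, h2, h3, h4, h5⟩ ⟨T, k1, k2, k3, k4, k5⟩
      refine ⟨S ∪ T, h1.union k1, union_subset h2 k2,
        Good.union h1 k1 (hb.subset h2) (hb.subset k2) ⟨x₀, h4, k4⟩ h3 k3, Or.inl h4, ?_⟩
      rw [inter_union_distrib_left]
      exact union_subset_union h5 k5
    · intro p hp
      obtain ⟨ρ, hρ, hg⟩ := good_local ho hL hp
      obtain ⟨y, hy1, hy2⟩ := Metric.mem_closure_iff.1 hp ρ hρ
      have hyS : y ∈ Ω ∩ ball p ρ := ⟨hy1, by rw [mem_ball, dist_comm]; exact hy2⟩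
      obtain ⟨S, h1, h2, h3, h4, h5⟩ := hP y hy1
      refine ⟨ball p ρ, mem_nhdsWithin_of_mem_nhds (ball_mem_nhds p hρ), S ∪ (Ω ∩ ball p ρ),
        h1.union (ho.inter isOpen_ball), union_subset h2 inter_subset_left,
        Good.union h1 (ho.inter isOpen_ball) (hb.subset h2) (hb.subset inter_subset_left)
          ⟨y, h5, hyS⟩ h3 hg, Or.inl h4, subset_union_right⟩
  obtain ⟨S, -, h2, h3, -, h5⟩ := key
  have : S = Ω := h2.antisymm fun x hx => h5 ⟨hx, subset_closure hx⟩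
  rwa [this] at h3

lemma poincare {Ω : Set ℂ} (ho : IsOpen Ω) (hb : Bornology.IsBounded Ω) (hc : IsConnected Ω)
    (hL : HasLipschitzBoundary Ω) : ∃ C : ℝ, 0 < C ∧ ∀ v g₁ g₂ : ℂ → ℝ, MemH1 Ω v g₁ g₂ →
      ∫ z in Ω, v z = 0 → ∫ z in Ω, v z ^ 2 ≤ C * ∫ z in Ω, (g₁ z ^ 2 + g₂ z ^ 2) := by
  obtain ⟨C, hC, hg⟩ := good_global ho hb hc hL
  refine ⟨C + 1, by positivity, fun v g₁ g₂ hv h0 => ?_⟩
  obtain ⟨V, hVv, htr⟩ := exists_tr ho hb hv
  obtain ⟨c, hc'⟩ := hg V _ htr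
  have hE := htr.2.2.1
  have : IsFiniteMeasure (volume.restrict Ω) := ⟨by simpa using hb.measure_lt_top⟩
  have hvi : Integrable v (volume.restrict Ω) := hv.1.integrable (by norm_num)
  have e1 : ∫ x in Ω, (V x - c) ^ 2 = ∫ x in Ω, (v x ^ 2 + (c ^ 2 - 2 * c * v x)) :=
    integral_congr_ae (by filter_upwards [hVv] with x hx; rw [hx]; ring)
  have i1 : Integrable (fun x => 2 * c * v x) (volume.restrict Ω) := hvi.const_mul _
  have i2 : Integrable (fun _ : ℂ => c ^ 2) (volume.restrict Ω) := integrable_const _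
  have i3 : Integrable (fun x => c ^ 2 - 2 * c * v x) (volume.restrict Ω) := i2.sub i1
  rw [integral_add hv.1.integrable_sq i3, integral_sub i2 i1, integral_const_mul, h0] at e1
  have : 0 ≤ ∫ _ in Ω, c ^ 2 := integral_nonneg fun _ => sq_nonneg c
  nlinarith

lemma exists_nonzero {Ω : Set ℂ} (ho : IsOpen Ω) (hb : Bornology.IsBounded Ω)
    (hne : Ω.Nonempty) : ∃ v g₁ g₂ : ℂ → ℝ, MemH1 Ω v g₁ g₂ ∧ ∫ z in Ω, v z ^ 2 ≠ 0 ∧
      ∫ z in Ω, v z = 0 := by
  have hfin : IsFiniteMeasure (volume.restrict Ω) := ⟨by simpa using hb.measure_lt_top⟩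
  have hm : 0 < volume.real Ω :=
    ENNReal.toReal_pos (ho.measure_pos volume hne).ne' hb.measure_lt_top.ne
  obtain ⟨R, hR⟩ := hb.subset_closedBall 0
  set a : ℝ := (∫ z in Ω, z.re) / volume.real Ω with ha
  have hre : MemLp (fun z : ℂ => z.re) 2 (volume.restrict Ω) := by
    refine MemLp.of_bound Complex.continuous_re.aestronglyMeasurable R ?_
    filter_upwards [ae_restrict_mem ho.measurableSet] with z hz
    exact (Complex.abs_re_le_norm z).trans (by simpa using hR hz)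
  have hv : MemLp (fun z : ℂ => z.re - a) 2 (volume.restrict Ω) := hre.sub (memLp_const a)
  have hfd : ∀ z : ℂ, HasFDerivAt (fun z : ℂ => z.re - a) Complex.reCLM z := fun z =>
    Complex.reCLM.hasFDerivAt.sub_const a
  have hcont : Continuous (fun z : ℂ => z.re - a) := by fun_prop
  have hw : ∀ e : ℂ, HasWeakDeriv Ω e (fun z => z.re - a) (fun _ => e.re) := by
    intro e φ h1 h2 h3
    have hz : ∀ x, x ∉ Ω → φ x = 0 := fun x hx =>
      image_eq_zero_of_notMem_tsupport fun h' => hx (h3 h')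
    have hz' : ∀ x, x ∉ Ω → fderiv ℝ φ x e = 0 := fun x hx => by
      have : fderiv ℝ φ x = 0 :=
        image_eq_zero_of_notMem_tsupport fun h' => hx (h3 (tsupport_fderiv_subset ℝ h'))
      simp [this]
    have hdc : Continuous (fun z => fderiv ℝ φ z e) :=
      (h1.continuous_fderiv (by simp)).clm_apply continuous_const
    rw [setIntegral_eq_integral_of_forall_compl_eq_zero fun x hx => by simp [hz' x hx],
      setIntegral_eq_integral_of_forall_compl_eq_zero fun x hx => by simp [hz x hx],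
      integral_mul_fderiv_eq_neg_fderiv_mul_of_integrable]
    · simp [(hfd _).fderiv]
    · simp only [(hfd _).fderiv]
      exact (continuous_const.mul h1.continuous).integrable_of_hasCompactSupport h2.mul_left
    · exact (hcont.mul hdc).integrable_of_hasCompactSupport (h2.fderiv_apply ℝ e).mul_left
    · exact (hcont.mul h1.continuous).integrable_of_hasCompactSupport h2.mul_left
    · exact fun x _ => (hfd x).differentiableAt
    · exact fun x _ => h1.differentiable (by simp) x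
  refine ⟨fun z => z.re - a, fun _ => (1 : ℂ).re, fun _ => Complex.I.re,
    ⟨hv, memLp_const _, memLp_const _, hw 1, hw _⟩, ?_, ?_⟩
  · intro h0
    rw [setIntegral_eq_zero_iff_of_nonneg_ae (Eventually.of_forall fun x => sq_nonneg _)
      hv.integrable_sq] at h0
    have h1 := Measure.eqOn_open_of_ae_eq h0 ho (hcont.pow 2).continuousOn continuousOn_const
    obtain ⟨p, hp⟩ := hne
    obtain ⟨ρ, hρ, hsub⟩ := Metric.isOpen_iff.1 ho p hp
    have hp' : p + ((ρ / 2 : ℝ) : ℂ) ∈ Ω := hsub (by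
      rw [mem_ball, dist_eq_norm, add_sub_cancel_left, Complex.norm_real,
        Real.norm_of_nonneg (by positivity)]
      linarith)
    have k1 := pow_eq_zero_iff two_ne_zero |>.1 (h1 hp)
    have k2 := pow_eq_zero_iff two_ne_zero |>.1 (h1 hp')
    simp only [Complex.add_re, Complex.ofReal_re] at k2
    linarith
  · rw [integral_sub (hre.integrable (by norm_num)) (integrable_const a), setIntegral_const,
      smul_eq_mul, ha]
    field_simp
    ring

end Poinc

/-- Poincaré inequality: the first positive Neumann eigenvalue of a bounded Lipschitz domain is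
positive. -/
theorem mu1_pos {Ω : Set ℂ} (ho : IsOpen Ω) (hb : Bornology.IsBounded Ω) (hc : IsConnected Ω)
    (hL : HasLipschitzBoundary Ω) : 0 < mu1 Ω := by
  obtain ⟨C, hC, hP⟩ := Poinc.poincare ho hb hc hL
  obtain ⟨v, g₁, g₂, hv, h1, h2⟩ := Poinc.exists_nonzero ho hb hc.nonempty
  refine lt_of_lt_of_le (by positivity : 0 < 1 / C) (le_csInf ⟨_, v, g₁, g₂, hv, h1, h2, rfl⟩ ?_)
  rintro R ⟨v, g₁, g₂, hv, h1, h2, rfl⟩
  have hpos : 0 < ∫ z in Ω, v z ^ 2 :=
    lt_of_le_of_ne (integral_nonneg fun z => sq_nonneg _) (Ne.symm h1)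
  rw [div_le_div_iff₀ hC hpos]
  have := hP v g₁ g₂ hv h2
  linarith

end Vale.Agent.P071
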