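import Vale.Agent.P071.Disc

/-!
Polynomials in `z` and `conj z`: density in `L²` of the disc and two explicit decompositions.
-/

open MeasureTheory Complex Set Metric Filter Topology
open scoped ComplexConjugate ContDiff

namespace Vale.Agent.P071

/-- polynomials in `z` and `conj z` -/
inductive IsPoly : (ℂ → ℂ) → Prop
  | mono (c : ℂ) (a b : ℕ) : IsPoly (fun z => c * z ^ a * conj z ^ b)
  | add {p q : ℂ → ℂ} : IsPoly p → IsPoly q → IsPoly (fun z => p z + q z)

theorem IsPoly.congr {p q : ℂ → ℂ} (h : IsPoly p) (e : ∀ z, q z = p z) : IsPoly q :=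
  (funext e : q = p) ▸ h

theorem IsPoly.mul {p q : ℂ → ℂ} (hp : IsPoly p) (hq : IsPoly q) : IsPoly fun z => p z * q z := by
  induction hp with
  | mono c a b =>
    induction hq with
    | mono c' a' b' => exact (IsPoly.mono (c * c') (a + a') (b + b')).congr fun z => by ring
    | add _ _ h1 h2 => exact (h1.add h2).congr fun z => by ring
  | add _ _ h1 h2 => exact (h1.add h2).congr fun z => by ring

theorem IsPoly.continuous {p : ℂ → ℂ} (hp : IsPoly p) : Continuous p := by
  induction hp with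
  | mono c a b => fun_prop
  | add _ _ h1 h2 => exact h1.add h2

theorem exists_poly_uniform {h : ℂ → ℂ} (hh : Continuous h) {ε : ℝ} (hε : 0 < ε) :
    ∃ p, IsPoly p ∧ ∀ z ∈ Ds, ‖h z - p z‖ ≤ ε := by
  have : CompactSpace (closedBall (0 : ℂ) 1) :=
    isCompact_iff_compactSpace.1 (isCompact_closedBall _ _)
  let H : C(closedBall (0 : ℂ) 1, ℂ) := ⟨fun z => h z, hh.comp continuous_subtype_val⟩
  have h1 := polynomialFunctions.starClosure_topologicalClosure (closedBall (0 : ℂ) 1) ▸
    StarSubalgebra.mem_top (x := H)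
  rw [← SetLike.mem_coe, StarSubalgebra.topologicalClosure_coe, Metric.mem_closure_iff] at h1
  obtain ⟨g, hg, hd⟩ := h1 ε hε
  have h2 : ∃ p, IsPoly p ∧ ∀ z : closedBall (0 : ℂ) 1, g z = p z := by
    clear hd
    rw [SetLike.mem_coe, polynomialFunctions.starClosure_eq_adjoin_X] at hg
    induction hg using StarAlgebra.adjoin_induction with
    | mem f hf =>
      obtain rfl := hf
      exact ⟨_, IsPoly.mono 1 1 0, fun z => by simp⟩
    | algebraMap r => exact ⟨_, IsPoly.mono r 0 0, fun z => by simp⟩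
    | add _ _ _ _ hf hg =>
      obtain ⟨p, hp, e⟩ := hf
      obtain ⟨q, hq, e'⟩ := hg
      exact ⟨_, hp.add hq, fun z => by simp [e, e']⟩
    | mul _ _ _ _ hf hg =>
      obtain ⟨p, hp, e⟩ := hf
      obtain ⟨q, hq, e'⟩ := hg
      exact ⟨_, hp.mul hq, fun z => by simp [e, e']⟩
    | star _ _ hf =>
      obtain ⟨p, hp, e⟩ := hf
      refine ⟨fun z => conj (p z), ?_, fun z => by simp [e]⟩
      clear e
      induction hp with
      | mono c a b => exact (IsPoly.mono (conj c) b a).congr fun z => by simp; ring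
      | add _ _ h1 h2 => exact (h1.add h2).congr fun z => by simp
  obtain ⟨p, hp, e⟩ := h2
  refine ⟨p, hp, fun z hz => ?_⟩
  have := (ContinuousMap.dist_apply_le_dist (f := H) (g := g)
    ⟨z, ball_subset_closedBall (Ds_subset hz)⟩).trans hd.le
  rw [e, dist_eq_norm] at this
  exact this

theorem exists_poly_L2 {F : ℂ → ℂ} (hF : HW F) {ε : ℝ} (hε : 0 < ε) :
    ∃ p, IsPoly p ∧ ∫ z in Ds, ‖F z - p z‖ ^ 2 ≤ ε := by
  have h1 : MemLp F (ENNReal.ofReal 2) (volume.restrict Ds) := by
    rw [show ENNReal.ofReal 2 = 2 by simp]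
    exact (memLp_two_iff_integrable_sq_norm (hF.1.aestronglyMeasurable measurableSet_Ds)).2 hF.sq
  obtain ⟨g, hg, -⟩ := h1.exists_boundedContinuous_integral_rpow_sub_le two_pos
    (show 0 < ε / 4 by positivity)
  simp only [Real.rpow_two] at hg
  set V := (volume.restrict Ds : Measure ℂ).real univ with hV
  have hV0 : 0 ≤ V := measureReal_nonneg
  obtain ⟨p, hp, e⟩ := exists_poly_uniform g.continuous
    (show 0 < Real.sqrt (ε / 4 / (V + 1)) by positivity)
  refine ⟨p, hp, ?_⟩
  have i1 := (hF.sub (Bd.of_continuous g.continuous).hw).sq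
  have i2 := (hF.sub (Bd.of_continuous hp.continuous).hw).sq
  calc ∫ z in Ds, ‖F z - p z‖ ^ 2
      ≤ ∫ z in Ds, (2 * ‖F z - g z‖ ^ 2 + 2 * (ε / 4 / (V + 1))) := by
        refine setIntegral_mono_on i2 ((i1.const_mul 2).add (integrable_const _)) measurableSet_Ds
          fun z hz => ?_
        have e1 := pow_le_pow_left₀ (norm_nonneg _) (e z hz) 2
        rw [Real.sq_sqrt (by positivity)] at e1
        have e2 : ‖F z - p z‖ ≤ ‖F z - g z‖ + ‖g z - p z‖ := norm_sub_le_norm_sub_add_norm_sub _ _ _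
        nlinarith [norm_nonneg (F z - p z), sq_nonneg (‖F z - g z‖ - ‖g z - p z‖)]
    _ = 2 * (∫ z in Ds, ‖F z - g z‖ ^ 2) + V * (2 * (ε / 4 / (V + 1))) := by
        rw [integral_add (i1.const_mul 2) (integrable_const _), integral_const_mul, integral_const,
          smul_eq_mul]
    _ ≤ ε := by
        have : V * (2 * (ε / 4 / (V + 1))) ≤ ε / 2 := by
          rw [show V * (2 * (ε / 4 / (V + 1))) = ε / 2 * (V / (V + 1)) by field_simp; ring]
          exact mul_le_of_le_one_right (by positivity) ((div_le_one (by positivity)).2 (by linarith))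
        linarith

theorem hasW_van {F : ℂ → ℂ} {a b z : ℂ} (h : HasW F a b z) :
    HasW (fun w => (1 - w * conj w) * F w) ((1 - z * conj z) * a - conj z * F z)
      ((1 - z * conj z) * b - z * F z) z :=
  (((HasW.const 1 z).sub ((HasW.id' z).mul (HasW.conj' z))).mul h).congr (by ring) (by ring)

theorem geom_van (j : ℕ) (z : ℂ) :
    (1 - z * conj z) * ∑ i ∈ Finset.range j, (z * conj z) ^ i = 1 - (z * conj z) ^ j :=
  mul_neg_geom_sum _ _

theorem hasW_mono (c : ℂ) (a b : ℕ) (z : ℂ) : HasW (fun w => c * w ^ a * conj w ^ b)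
    (c * (a * z ^ (a - 1)) * conj z ^ b) (c * z ^ a * (b * conj z ^ (b - 1))) z :=
  ((((HasW.id' z).pow a).const_mul c).mul ((HasW.conj' z).pow b)).congr (by ring) (by ring)

/-- every polynomial is a `conj z` derivative of a function vanishing on the circle plus an
antiholomorphic function -/
theorem IsPoly.decomp_a {p : ℂ → ℂ} (hp : IsPoly p) : ∃ ψ A : ℂ → ℂ, ContDiff ℝ ∞ ψ ∧
    ContDiff ℝ ∞ A ∧ (∀ z, dz A z = 0) ∧
    ∀ z, p z = (1 - z * conj z) * dzb ψ z - z * ψ z + A z := by
  induction hp with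
  | mono c a b =>
    have hb : ((b : ℂ) + 1) ≠ 0 := by exact_mod_cast Nat.succ_ne_zero b
    rcases le_total (b + 1) a with h | h
    · obtain ⟨k, rfl⟩ := Nat.exists_eq_add_of_le h
      have hs : ContDiff ℝ ∞ fun z : ℂ => -(c / (b + 1)) * z ^ k *
        ∑ i ∈ Finset.range (b + 1), (z * conj z) ^ i := by fun_prop
      refine ⟨_, fun _ => 0, hs, contDiff_const, fun z => (HasW.const 0 z).dz_eq, fun z => ?_⟩
      have h1 := (hasW_van (hs.hasW z)).dzb_eq
      have h2 := ((hasW_mono (c / (b + 1)) (b + 1 + k) (b + 1) z).sub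
        (hasW_mono (c / (b + 1)) k 0 z)).dzb_eq
      have e : (fun w : ℂ => (1 - w * conj w) * (-(c / (b + 1)) * w ^ k *
          ∑ i ∈ Finset.range (b + 1), (w * conj w) ^ i)) = fun w =>
          c / (b + 1) * w ^ (b + 1 + k) * conj w ^ (b + 1) - c / (b + 1) * w ^ k * conj w ^ 0 := by
        funext w
        linear_combination (-(c / (b + 1)) * w ^ k) * geom_van (b + 1) w
      rw [← h1, e, h2]
      simp only [Nat.add_sub_cancel]
      push_cast
      field_simp
      ring
    · obtain ⟨k, hk⟩ := Nat.exists_eq_add_of_le h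
      have hs : ContDiff ℝ ∞ fun z : ℂ => -(c / (b + 1)) * conj z ^ k *
        ∑ i ∈ Finset.range a, (z * conj z) ^ i := by fun_prop
      refine ⟨_, fun z => c / (b + 1) * z ^ 0 * (k * conj z ^ (k - 1)), hs, by fun_prop,
        fun z => ?_, fun z => ?_⟩
      · rw [((((HasW.id' z).pow 0).const_mul (c / (b + 1))).mul
          (((HasW.conj' z).pow (k - 1)).const_mul k)).dz_eq]
        simp
      have h1 := (hasW_van (hs.hasW z)).dzb_eq
      have h2 := ((hasW_mono (c / (b + 1)) a (b + 1) z).sub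
        (hasW_mono (c / (b + 1)) 0 k z)).dzb_eq
      have e : (fun w : ℂ => (1 - w * conj w) * (-(c / (b + 1)) * conj w ^ k *
          ∑ i ∈ Finset.range a, (w * conj w) ^ i)) = fun w =>
          c / (b + 1) * w ^ a * conj w ^ (b + 1) - c / (b + 1) * w ^ 0 * conj w ^ k := by
        funext w
        rw [hk]
        linear_combination (-(c / (b + 1)) * conj w ^ k) * geom_van a w
      rw [← h1, e, h2]
      simp only [Nat.add_sub_cancel]
      push_cast
      field_simp
      ring
  | add _ _ h1 h2 =>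
    obtain ⟨ψ, A, a1, a2, a3, a4⟩ := h1
    obtain ⟨ψ', A', b1, b2, b3, b4⟩ := h2
    refine ⟨fun z => ψ z + ψ' z, fun z => A z + A' z, a1.add b1, a2.add b2, fun z => ?_,
      fun z => ?_⟩
    · rw [((a2.hasW z).add (b2.hasW z)).dz_eq, a3, b3, add_zero]
    · rw [((a1.hasW z).add (b1.hasW z)).dzb_eq]
      linear_combination a4 z + b4 z

/-- every polynomial is a `z` derivative of a function that is real on the circle -/
theorem IsPoly.decomp_b {p : ℂ → ℂ} (hp : IsPoly p) : ∃ s₁ s₂ : ℂ → ℂ, ContDiff ℝ ∞ s₁ ∧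
    ContDiff ℝ ∞ s₂ ∧ (∀ z, conj (s₁ z) = s₁ z) ∧
    ∀ z, p z = dz s₁ z + ((1 - z * conj z) * dz s₂ z - conj z * s₂ z) := by
  induction hp with
  | mono c a b =>
    have ha : ((a : ℂ) + 1) ≠ 0 := by exact_mod_cast Nat.succ_ne_zero a
    rcases le_total b (a + 1) with h | h
    · obtain ⟨k, hk⟩ := Nat.exists_eq_add_of_le h
      have hs : ContDiff ℝ ∞ fun z : ℂ => -(c / (a + 1)) * z ^ k *
        ∑ i ∈ Finset.range b, (z * conj z) ^ i := by fun_prop
      refine ⟨fun z => c / (a + 1) * z ^ k * conj z ^ 0 + conj (c / (a + 1) * z ^ k * conj z ^ 0),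
        _, by fun_prop, hs, fun z => by rw [map_add, conj_conj, add_comm], fun z => ?_⟩
      have h0 := ((hasW_mono (c / (a + 1)) k 0 z).add (hasW_mono (c / (a + 1)) k 0 z).cj).dz_eq
      have h1 := (hasW_van (hs.hasW z)).dz_eq
      have h2 := ((hasW_mono (c / (a + 1)) (a + 1) b z).sub
        (hasW_mono (c / (a + 1)) k 0 z)).dz_eq
      have e : (fun w : ℂ => (1 - w * conj w) * (-(c / (a + 1)) * w ^ k *
          ∑ i ∈ Finset.range b, (w * conj w) ^ i)) = fun w =>
          c / (a + 1) * w ^ (a + 1) * conj w ^ b - c / (a + 1) * w ^ k * conj w ^ 0 := by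
        funext w
        rw [hk]
        linear_combination (-(c / (a + 1)) * w ^ k) * geom_van b w
      rw [← h1, e, h2, h0]
      simp only [Nat.add_sub_cancel, Nat.cast_zero, zero_mul, mul_zero, map_zero]
      push_cast
      field_simp
      ring
    · obtain ⟨k, rfl⟩ := Nat.exists_eq_add_of_le h
      have hs : ContDiff ℝ ∞ fun z : ℂ => -(c / (a + 1)) * conj z ^ k *
        ∑ i ∈ Finset.range (a + 1), (z * conj z) ^ i := by fun_prop
      refine ⟨fun _ => 0, _, contDiff_const, hs, fun z => by simp, fun z => ?_⟩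
      have h1 := (hasW_van (hs.hasW z)).dz_eq
      have h2 := ((hasW_mono (c / (a + 1)) (a + 1) (a + 1 + k) z).sub
        (hasW_mono (c / (a + 1)) 0 k z)).dz_eq
      have e : (fun w : ℂ => (1 - w * conj w) * (-(c / (a + 1)) * conj w ^ k *
          ∑ i ∈ Finset.range (a + 1), (w * conj w) ^ i)) = fun w =>
          c / (a + 1) * w ^ (a + 1) * conj w ^ (a + 1 + k) - c / (a + 1) * w ^ 0 * conj w ^ k := by
        funext w
        linear_combination (-(c / (a + 1)) * conj w ^ k) * geom_van (a + 1) w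
      rw [← h1, e, h2, (HasW.const 0 z).dz_eq]
      simp only [Nat.add_sub_cancel]
      push_cast
      field_simp
      ring
  | add _ _ h1 h2 =>
    obtain ⟨s, t, a1, a2, a3, a4⟩ := h1
    obtain ⟨s', t', b1, b2, b3, b4⟩ := h2
    refine ⟨fun z => s z + s' z, fun z => t z + t' z, a1.add b1, a2.add b2, fun z => ?_,
      fun z => ?_⟩
    · rw [map_add, a3, b3]
    · rw [((a1.hasW z).add (b1.hasW z)).dz_eq, ((a2.hasW z).add (b2.hasW z)).dz_eq]
      linear_combination a4 z + b4 z

end Vale.Agent.P071
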