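import Mathlib

/-! The Riemann mapping theorem. The first two lemmas are copied from Mathlib, where they are
private. -/

open Metric Set Filter Function
open scoped Topology Pointwise

namespace Vale.Agent.P071

namespace RMT

theorem step1 {U : Set ℂ} (hUo : IsOpen U)
    (hUc : IsSimplyConnected U) (hU : U ≠ univ) :
    ∃ f : ℂ → ℂ, Injective f ∧ ¬Dense (f '' U) ∧ ∀ z ∈ U, deriv f z ≠ 0 := by
  wlog hU₀ : 0 ∉ U
  · rw [ne_univ_iff_exists_notMem] at hU
    rcases hU with ⟨a, ha⟩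
    specialize this (hUo.vadd (-a)) (by simpa) (by simp [hU])
      (by simpa [mem_vadd_set_iff_neg_vadd_mem])
    rcases this with ⟨f, hf_inj, hf_dense, hdf⟩
    refine ⟨f ∘ (-a + ·), hf_inj.comp (add_right_injective (-a)), ?_, fun z hz ↦ ?_⟩
    · simpa only [← image_vadd, Set.image_image] using! hf_dense
    · simpa [Function.comp_def, deriv_comp_const_add] using hdf (-a + z) (mapsTo_image _ _ hz)
  rcases Complex.exists_continuousOn_pow_eq hUc hUo continuousOn_id (by rwa [image_id])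
    two_ne_zero with ⟨f, hfc, hf_inv⟩
  replace hf_inv : LeftInverse (· ^ 2) f := hf_inv
  have hf₀ : ∀ z ∈ U, f z ≠ 0 := by
    intro z hz hfz
    simpa [hfz, (ne_of_mem_of_not_mem hz hU₀).symm] using hf_inv z
  have hdf : ∀ z ∈ U, HasStrictDerivAt f (2 * f z)⁻¹ z := by
    intro z hz
    apply HasStrictDerivAt.of_local_left_inverse
    · exact hfc.continuousAt <| hUo.mem_nhds hz
    · simpa using hasStrictDerivAt_pow 2 (f z)
    · simpa using hf₀ z hz
    · exact .of_forall hf_inv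
  refine ⟨f, hf_inv.injective, ?_, fun z hz ↦ ?_⟩
  · simp only [Dense, not_forall, mem_closure_iff_frequently, not_frequently]
    rcases hUc.nonempty with ⟨x, hx⟩
    use -f x
    have : f '' U ∈ 𝓝 (f x) := by
      rw [← (hdf x hx).map_nhds_eq (by simpa using hf₀ x hx)]
      exact Filter.image_mem_map <| hUo.mem_nhds hx
    rw [nhds_neg, eventually_neg]
    filter_upwards [this]
    rintro _ ⟨a, ha, rfl⟩ ⟨b, hb, hab⟩
    obtain rfl : a = b := by
      rw [← hf_inv b, hab]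
      simp [hf_inv a]
    refine hf₀ a ha ?_
    linear_combination hab / 2
  · simpa [(hdf z hz).hasDerivAt.deriv] using hf₀ z hz

theorem step2 {U : Set ℂ} (hUo : IsOpen U)
    (hUc : IsSimplyConnected U) (hU : U ≠ univ) :
    ∃ f : ℂ → ℂ, MapsTo f U (ball 0 1) ∧ InjOn f U ∧ ∀ z ∈ U, deriv f z ≠ 0 := by
  rcases step1 hUo hUc hU with ⟨f, hf_inj, hfd, hdf⟩
  obtain ⟨x, ε, hε₀, hε⟩ : ∃ (x : ℂ) (ε : ℝ), 0 < ε ∧ ∀ a ∈ U, ε < dist (f a) x := by
    simpa [Dense, mem_closure_iff_nhds_basis Metric.nhds_basis_closedBall] using hfd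
  have hfx : ∀ z ∈ U, f z ≠ x := fun z hz ↦ by simpa using hε₀.trans (hε z hz)
  use fun z ↦ ε / (f z - x)
  refine ⟨?mapsTo, ?injOn, ?deriv⟩
  case mapsTo =>
    intro z hz
    rw [mem_ball_zero_iff, norm_div, Complex.norm_real, Real.norm_of_nonneg hε₀.le, div_lt_one₀]
    · simpa [dist_eq_norm] using hε z hz
    · simpa [sub_eq_zero] using hfx z hz
  case injOn =>
    intro z hz w hw heq
    simpa [div_eq_mul_inv, hε₀.ne', hf_inj.eq_iff] using heq
  case deriv =>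
    intro z hz
    have hdz : DifferentiableAt ℂ f z := differentiableAt_of_deriv_ne_zero (hdf z hz)
    rw [(hasDerivAt_const _ _).fun_div (hdz.hasDerivAt.sub_const _) _ |>.deriv] <;>
      simp [*, ne_of_gt, sub_eq_zero]

/-- Disc automorphism. -/
noncomputable def mob (a z : ℂ) : ℂ := (z - a) / (1 - (starRingEnd ℂ) a * z)

theorem mob_den_ne {a z : ℂ} (ha : ‖a‖ < 1) (hz : ‖z‖ < 1) : 1 - (starRingEnd ℂ) a * z ≠ 0 := by
  intro h
  have h1 : (starRingEnd ℂ) a * z = 1 := by linear_combination -h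
  have h2 := congrArg norm h1
  rw [norm_mul, Complex.norm_conj, norm_one] at h2
  nlinarith [norm_nonneg a, norm_nonneg z]

theorem norm_mob_lt {a z : ℂ} (ha : ‖a‖ < 1) (hz : ‖z‖ < 1) : ‖mob a z‖ < 1 := by
  rw [mob, norm_div, div_lt_one (norm_pos_iff.2 (mob_den_ne ha hz))]
  refine lt_of_pow_lt_pow_left₀ 2 (norm_nonneg _) ?_
  have ha' : ‖a‖ ^ 2 < 1 := by nlinarith [norm_nonneg a]
  have hz' : ‖z‖ ^ 2 < 1 := by nlinarith [norm_nonneg z]
  rw [Complex.sq_norm, Complex.normSq_apply] at ha' hz' ⊢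
  rw [Complex.sq_norm, Complex.normSq_apply]
  simp only [Complex.sub_re, Complex.sub_im, Complex.one_re, Complex.one_im, Complex.mul_re,
    Complex.mul_im, Complex.conj_re, Complex.conj_im]
  nlinarith [mul_pos (sub_pos.2 ha') (sub_pos.2 hz')]

theorem one_sub_ne {a : ℂ} (ha : ‖a‖ < 1) : 1 - (starRingEnd ℂ) a * a ≠ 0 := mob_den_ne ha ha

theorem mob_inj {a z w : ℂ} (ha : ‖a‖ < 1) (hz : ‖z‖ < 1) (hw : ‖w‖ < 1)
    (h : mob a z = mob a w) : z = w := by
  rw [mob, mob, div_eq_div_iff (mob_den_ne ha hz) (mob_den_ne ha hw)] at h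
  have : (z - w) * (1 - (starRingEnd ℂ) a * a) = 0 := by linear_combination h
  exact sub_eq_zero.1 ((mul_eq_zero.1 this).resolve_right (one_sub_ne ha))

theorem hasDerivAt_mob {a z : ℂ} (ha : ‖a‖ < 1) (hz : ‖z‖ < 1) :
    HasDerivAt (mob a) ((1 - (starRingEnd ℂ) a * a) / (1 - (starRingEnd ℂ) a * z) ^ 2) z := by
  have h1 : HasDerivAt (fun z : ℂ => z - a) 1 z := (hasDerivAt_id z).sub_const a
  have h2 : HasDerivAt (fun z : ℂ => 1 - (starRingEnd ℂ) a * z) (-(starRingEnd ℂ) a) z := by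
    simpa using ((hasDerivAt_id z).const_mul ((starRingEnd ℂ) a)).const_sub 1
  refine (h1.fun_div h2 (mob_den_ne ha hz)).congr_deriv ?_
  congr 1
  ring

/-- Injective holomorphic maps to the disc with nonzero derivative. -/
def Pre (U : Set ℂ) (g : ℂ → ℂ) : Prop :=
  MapsTo g U (ball 0 1) ∧ InjOn g U ∧ ∀ z ∈ U, deriv g z ≠ 0

theorem Pre.diffAt {U : Set ℂ} {g : ℂ → ℂ} (h : Pre U g) {z : ℂ} (hz : z ∈ U) :
    DifferentiableAt ℂ g z := differentiableAt_of_deriv_ne_zero (h.2.2 z hz)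

theorem Pre.diffOn {U : Set ℂ} {g : ℂ → ℂ} (h : Pre U g) : DifferentiableOn ℂ g U :=
  fun _ hz => (h.diffAt hz).differentiableWithinAt

theorem Pre.norm_lt {U : Set ℂ} {g : ℂ → ℂ} (h : Pre U g) {z : ℂ} (hz : z ∈ U) : ‖g z‖ < 1 :=
  mem_ball_zero_iff.1 (h.1 hz)

theorem Pre.deriv_mob {U : Set ℂ} {g : ℂ → ℂ} (h : Pre U g) {a : ℂ} (ha : ‖a‖ < 1) {z : ℂ}
    (hz : z ∈ U) : deriv (mob a ∘ g) z
      = (1 - (starRingEnd ℂ) a * a) / (1 - (starRingEnd ℂ) a * g z) ^ 2 * deriv g z :=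
  ((hasDerivAt_mob ha (h.norm_lt hz)).comp z (h.diffAt hz).hasDerivAt).deriv

theorem Pre.mob {U : Set ℂ} {g : ℂ → ℂ} (h : Pre U g) {a : ℂ} (ha : ‖a‖ < 1) :
    Pre U (mob a ∘ g) := by
  refine ⟨fun z hz => mem_ball_zero_iff.2 (norm_mob_lt ha (h.norm_lt hz)),
    fun z hz w hw e => h.2.1 hz hw (mob_inj ha (h.norm_lt hz) (h.norm_lt hw) e), fun z hz => ?_⟩
  rw [h.deriv_mob ha hz]
  exact mul_ne_zero (div_ne_zero (one_sub_ne ha)
    (pow_ne_zero _ (mob_den_ne ha (h.norm_lt hz)))) (h.2.2 z hz)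

theorem Pre.sqrt {U : Set ℂ} (hUo : IsOpen U) (hUc : IsSimplyConnected U) {h : ℂ → ℂ}
    (hh : Pre U h) (h0 : 0 ∉ h '' U) :
    ∃ s : ℂ → ℂ, Pre U s ∧ (∀ z, s z ^ 2 = h z) ∧ ∀ z ∈ U, deriv s z = deriv h z / (2 * s z) := by
  obtain ⟨s, hs, hs2⟩ := Complex.exists_continuousOn_pow_eq hUc hUo hh.diffOn.continuousOn h0
    two_ne_zero
  have hs0 : ∀ z ∈ U, s z ≠ 0 := by
    intro z hz e
    refine h0 ⟨z, hz, ?_⟩
    rw [← hs2 z, e]; simp
  have hd : ∀ z ∈ U, HasDerivAt s (deriv h z / (2 * s z)) z := by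
    intro z hz
    have hc : ContinuousAt s z := hs.continuousAt (hUo.mem_nhds hz)
    have h1 : Tendsto (fun w => s w + s z) (𝓝[≠] z) (𝓝 (2 * s z)) := by
      rw [two_mul]
      exact (hc.tendsto.add_const (s z)).mono_left nhdsWithin_le_nhds
    have h2 : (2 * s z) ≠ 0 := mul_ne_zero two_ne_zero (hs0 z hz)
    have h3 := (hasDerivAt_iff_tendsto_slope.1 (hh.diffAt hz).hasDerivAt).div h1 h2
    rw [hasDerivAt_iff_tendsto_slope]
    refine h3.congr' ?_
    filter_upwards [h1.eventually_ne h2] with w hw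
    simp only [Pi.div_apply, slope_def_field]
    rw [← hs2 w, ← hs2 z]
    field_simp
    ring
  refine ⟨s, ⟨fun z hz => ?_, fun z hz w hw e => ?_, fun z hz => ?_⟩, hs2,
    fun z hz => (hd z hz).deriv⟩
  · rw [mem_ball_zero_iff]
    have := hh.norm_lt hz
    rw [← hs2 z, norm_pow] at this
    nlinarith [norm_nonneg (s z)]
  · refine hh.2.1 hz hw ?_
    rw [← hs2 z, ← hs2 w, e]
  · rw [(hd z hz).deriv]
    exact div_ne_zero (hh.2.2 z hz) (mul_ne_zero two_ne_zero (hs0 z hz))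

theorem norm_one_sub {a : ℂ} (ha : ‖a‖ < 1) : ‖1 - (starRingEnd ℂ) a * a‖ = 1 - ‖a‖ ^ 2 := by
  rw [Complex.conj_mul']
  have : (1 : ℂ) - (‖a‖ : ℂ) ^ 2 = ((1 - ‖a‖ ^ 2 : ℝ) : ℂ) := by push_cast; ring
  rw [this, Complex.norm_real, Real.norm_of_nonneg]
  nlinarith [norm_nonneg a]

theorem improve {U : Set ℂ} (hUo : IsOpen U) (hUc : IsSimplyConnected U) {p : ℂ} (hp : p ∈ U)
    {g : ℂ → ℂ} (hg : Pre U g) (hg0 : g p = 0) {w : ℂ} (hw : ‖w‖ < 1) (hw' : w ∉ g '' U) :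
    ∃ g' : ℂ → ℂ, Pre U g' ∧ g' p = 0 ∧ ‖deriv g p‖ < ‖deriv g' p‖ := by
  have h0 : 0 ∉ (mob w ∘ g) '' U := by
    rintro ⟨z, hz, e⟩
    refine hw' ⟨z, hz, ?_⟩
    simp only [comp_apply, mob, div_eq_zero_iff, mob_den_ne hw (hg.norm_lt hz), or_false] at e
    exact sub_eq_zero.1 e
  obtain ⟨s, hs, hs2, hsd⟩ := (hg.mob hw).sqrt hUo hUc h0
  have ht1 : ‖s p‖ < 1 := hs.norm_lt hp
  have hsw : ‖s p‖ ^ 2 = ‖w‖ := by
    rw [← norm_pow, hs2 p]
    simp [mob, hg0]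
  have ht0 : 0 < ‖s p‖ := by
    refine norm_pos_iff.2 fun e => h0 ⟨p, hp, ?_⟩
    rw [← hs2 p, e]; simp
  refine ⟨mob (s p) ∘ s, hs.mob ht1, by simp [mob], ?_⟩
  rw [hs.deriv_mob ht1 hp, hsd p hp, hg.deriv_mob hw hp, hg0]
  simp only [norm_mul, norm_div, norm_pow, norm_one_sub ht1, norm_one_sub hw, mul_zero, sub_zero,
    one_pow, div_one, Complex.norm_ofNat]
  rw [← hsw]
  have hD : 0 < ‖deriv g p‖ := norm_pos_iff.2 (hg.2.2 p hp)
  set t := ‖s p‖
  set D := ‖deriv g p‖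
  have h1 : 0 < 1 - t ^ 2 := by nlinarith
  have e : (1 - t ^ 2) / (1 - t ^ 2) ^ 2 * ((1 - (t ^ 2) ^ 2) * D / (2 * t))
      = (1 + t ^ 2) / (2 * t) * D := by
    field_simp
    ring
  rw [e]
  refine lt_mul_of_one_lt_left hD ?_
  rw [one_lt_div (by positivity)]
  nlinarith

theorem montel {U : Set ℂ} (hUo : IsOpen U) (g : ℕ → ℂ → ℂ)
    (hd : ∀ n, DifferentiableOn ℂ (g n) U) (hm : ∀ n, MapsTo (g n) U (ball 0 1))
    (φ : Ultrafilter ℕ) : ∃ G : ℂ → ℂ, TendstoLocallyUniformlyOn g G φ U := by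
  have h1 : ∀ z, ∃ y : ℂ, z ∈ U → Tendsto (fun n => g n z) φ (𝓝 y) := by
    intro z
    by_cases hz : z ∈ U
    · obtain ⟨y, -, hy⟩ := (isCompact_closedBall (0 : ℂ) 1).ultrafilter_le_nhds
        (φ.map fun n => g n z) (by
          rw [le_principal_iff, Ultrafilter.coe_map, Filter.mem_map]
          exact univ_mem' fun n => ball_subset_closedBall (hm n hz))
      exact ⟨y, fun _ => hy⟩
    · exact ⟨0, fun h => absurd h hz⟩
  choose G hG using h1
  refine ⟨G, Metric.tendstoLocallyUniformlyOn_iff.2 fun ε hε x hx => ?_⟩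
  obtain ⟨R, hR, hRU⟩ := Metric.isOpen_iff.1 hUo x hx
  have hL : ∀ n, ∀ y ∈ ball x R, dist (g n y) (g n x) ≤ 2 / R * dist y x := by
    intro n y hy
    refine Complex.dist_le_div_mul_dist_of_mapsTo_ball ((hd n).mono hRU) (fun z hz => ?_) hy
    have a1 := mem_ball_zero_iff.1 (hm n (hRU hz))
    have a2 := mem_ball_zero_iff.1 (hm n hx)
    rw [mem_closedBall, dist_eq_norm]
    linarith [norm_sub_le (g n z) (g n x)]
  have hL' : ∀ y ∈ ball x R, dist (G y) (G x) ≤ 2 / R * dist y x := fun y hy =>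
    le_of_tendsto' ((hG y (hRU hy)).dist (hG x hx)) fun n => hL n y hy
  refine ⟨ball x (min R (ε * R / 8)),
    mem_nhdsWithin_of_mem_nhds (ball_mem_nhds _ (by positivity)), ?_⟩
  filter_upwards [Metric.tendsto_nhds.1 (hG x hx) (ε / 4) (by positivity)] with n hn y hy
  have hy1 : y ∈ ball x R := ball_subset_ball (min_le_left _ _) hy
  have hy2 : 2 / R * dist y x ≤ ε / 4 := by
    have : dist y x ≤ ε * R / 8 := (mem_ball.1 hy).le.trans (min_le_right _ _)
    calc 2 / R * dist y x ≤ 2 / R * (ε * R / 8) := by gcongr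
      _ = ε / 4 := by field_simp; ring
  have t1 := dist_triangle4 (G y) (G x) (g n x) (g n y)
  have t2 := hL n y hy1
  have t3 := hL' y hy1
  rw [dist_comm (G x), dist_comm (g n x) (g n y)] at t1
  linarith

theorem hurwitz {V : Set ℂ} (hV : IsOpen V) {φ : Filter ℕ} [φ.NeBot] {h : ℕ → ℂ → ℂ} {H : ℂ → ℂ}
    (hd : ∀ n, DifferentiableOn ℂ (h n) V) (hne : ∀ n, ∀ z ∈ V, h n z ≠ 0)
    (ht : TendstoLocallyUniformlyOn h H φ V) {z₀ : ℂ} (hz : z₀ ∈ V) (h0 : H z₀ = 0) :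
    ∀ᶠ z in 𝓝 z₀, H z = 0 := by
  have hH : DifferentiableOn ℂ H V := ht.differentiableOn (Eventually.of_forall hd) hV
  refine ((hH.analyticAt (hV.mem_nhds hz)).eventually_eq_zero_or_eventually_ne_zero).resolve_right
    fun hcon => ?_
  rw [eventually_nhdsWithin_iff] at hcon
  obtain ⟨r, hr, hr'⟩ := Metric.nhds_basis_closedBall.eventually_iff.1
    (hcon.and (hV.mem_nhds hz))
  have hsub : closedBall z₀ r ⊆ V := fun z hz => (hr' hz).2
  have hsV : sphere z₀ r ⊆ V := sphere_subset_closedBall.trans hsub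
  obtain ⟨y, hy, hmin⟩ := (isCompact_sphere z₀ r).exists_isMinOn
    (NormedSpace.sphere_nonempty.2 hr.le) (hH.continuousOn.mono hsV).norm
  have hm : 0 < ‖H y‖ := by
    refine norm_pos_iff.2 ((hr' (sphere_subset_closedBall hy)).1 ?_)
    rintro rfl
    simp at hy
    linarith
  have hu := (tendstoLocallyUniformlyOn_iff_forall_isCompact hV).1 ht _ hsV (isCompact_sphere _ _)
  have e1 := Metric.tendstoUniformlyOn_iff.1 hu (‖H y‖ / 2) (by positivity)
  have e2 := Metric.tendsto_nhds.1 (ht.tendsto_at hz) (‖H y‖ / 2) (by positivity)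
  obtain ⟨n, hn1, hn2⟩ := (e1.and e2).exists
  have hinv : DiffContOnCl ℂ (fun z => (h n z)⁻¹) (ball z₀ r) := by
    refine DifferentiableOn.diffContOnCl ?_
    rw [closure_ball _ hr.ne']
    exact ((hd n).mono hsub).inv fun z hz => hne n z (hsub hz)
  have hb := Complex.norm_le_of_forall_mem_frontier_norm_le isBounded_ball hinv
    (C := (‖H y‖ / 2)⁻¹) (fun z hz => by
      rw [frontier_ball _ hr.ne'] at hz
      rw [norm_inv]
      refine inv_anti₀ (by positivity) ?_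
      have a1 := hn1 z hz
      have a2 : ‖H y‖ ≤ ‖H z‖ := hmin hz
      rw [dist_eq_norm] at a1
      linarith [norm_sub_norm_le (H z) (h n z)]) (subset_closure (mem_ball_self hr))
  rw [h0, dist_zero_right] at hn2
  rw [norm_inv, inv_le_inv₀ (norm_pos_iff.2 (hne n z₀ hz)) (by positivity)] at hb
  linarith

theorem exists_max {U : Set ℂ} (hUo : IsOpen U) (hUc : IsSimplyConnected U) (hU : U ≠ univ)
    {p : ℂ} (hp : p ∈ U) : ∃ G : ℂ → ℂ, Pre U G ∧ G p = 0 ∧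
      ∀ g : ℂ → ℂ, Pre U g → g p = 0 → ‖deriv g p‖ ≤ ‖deriv G p‖ := by
  obtain ⟨f₀, hf₀⟩ := step2 hUo hUc hU
  have hf₀' : Pre U f₀ := hf₀
  let S : Set ℝ := {x | ∃ g : ℂ → ℂ, Pre U g ∧ g p = 0 ∧ ‖deriv g p‖ = x}
  have hf₁ := hf₀'.mob (hf₀'.norm_lt hp)
  have hmem : ‖deriv (mob (f₀ p) ∘ f₀) p‖ ∈ S := ⟨_, hf₁, by simp [mob], rfl⟩
  obtain ⟨R, hR, hRU⟩ := Metric.isOpen_iff.1 hUo p hp
  have hbd : BddAbove S := by
    refine ⟨1 / R, ?_⟩
    rintro _ ⟨g, hg, hg0, rfl⟩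
    refine Complex.norm_deriv_le_div_of_mapsTo_ball (hg.diffOn.mono hRU) (fun z hz => ?_) hR
    rw [hg0]
    exact ball_subset_closedBall (hg.1 (hRU hz))
  have hM : 0 < sSup S := (norm_pos_iff.2 (hf₁.2.2 p hp)).trans_le (le_csSup hbd hmem)
  obtain ⟨u, -, hu, huS⟩ := exists_seq_tendsto_sSup ⟨_, hmem⟩ hbd
  choose g hg hg0 hgu using huS
  let φ : Ultrafilter ℕ := Ultrafilter.of atTop
  have hφ : (φ : Filter ℕ) ≤ atTop := Ultrafilter.of_le _
  obtain ⟨G, hG⟩ := montel hUo g (fun n => (hg n).diffOn) (fun n => (hg n).1) φ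
  have hGd : DifferentiableOn ℂ G U :=
    hG.differentiableOn (Eventually.of_forall fun n => (hg n).diffOn) hUo
  have hG' := hG.deriv (Eventually.of_forall fun n => (hg n).diffOn) hUo
  have hGp : ‖deriv G p‖ = sSup S := by
    refine tendsto_nhds_unique (hG'.tendsto_at hp).norm ((hu.mono_left hφ).congr fun n => ?_)
    exact (hgu n).symm
  have hpc : IsPreconnected U := hUc.isPathConnected.isConnected.isPreconnected
  have hGa : AnalyticOnNhd ℂ G U := hGd.analyticOnNhd hUo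
  have hne : ∀ z ∈ U, deriv G z ≠ 0 := by
    intro z hz e
    have h1 := hurwitz hUo (h := deriv ∘ g) (fun n => (hg n).diffOn.deriv hUo)
      (fun n => (hg n).2.2) hG' hz e
    have h2 := hGa.deriv.eqOn_zero_of_preconnected_of_eventuallyEq_zero hpc hz h1 hp
    rw [h2] at hGp
    simp at hGp
    linarith
  refine ⟨G, ⟨fun z hz => ?_, fun a ha b hb e => ?_, hne⟩, ?_, fun g' h1 h2 => ?_⟩
  · have h1 : G '' U ∈ 𝓝 (G z) := by
      rw [← (hGa z hz).hasStrictDerivAt.map_nhds_eq (hne z hz)]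
      exact image_mem_map (hUo.mem_nhds hz)
    rw [← interior_closedBall (0 : ℂ) one_ne_zero, mem_interior_iff_mem_nhds]
    refine mem_of_superset h1 ?_
    rintro _ ⟨y, hy, rfl⟩
    exact isClosed_closedBall.mem_of_tendsto (hG.tendsto_at hy)
      (Eventually.of_forall fun n => ball_subset_closedBall ((hg n).1 hy))
  · by_contra hab
    have hV : IsOpen (U \ {a}) := hUo.sdiff isClosed_singleton
    have ht : TendstoLocallyUniformlyOn (fun n z => g n z - g n a) (fun z => G z - G a) φ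
        (U \ {a}) :=
      (hG.mono sdiff_subset).sub
        ((hG.tendsto_at ha).tendstoUniformlyOn_const _).tendstoLocallyUniformlyOn
    have h1 := hurwitz hV (fun n => ((hg n).diffOn.mono sdiff_subset).sub_const _)
      (fun n z hz e => hz.2 ((hg n).2.1 hz.1 ha (sub_eq_zero.1 e))) ht
      (z₀ := b) ⟨hb, fun h => hab (mem_singleton_iff.1 h).symm⟩ (by rw [e, sub_self])
    have h2 : G =ᶠ[𝓝 b] fun _ => G a := h1.mono fun z hz => sub_eq_zero.1 hz
    refine hne b hb ?_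
    rw [h2.deriv_eq]
    simp
  · refine tendsto_nhds_unique (hG.tendsto_at hp) (tendsto_const_nhds.congr fun n => ?_)
    exact (hg0 n).symm
  · rw [hGp]
    exact le_csSup hbd ⟨g', h1, h2, rfl⟩

end RMT

open RMT in
theorem riemann_mapping {U : Set ℂ} (hUo : IsOpen U) (hUc : IsSimplyConnected U) (hU : U ≠ univ)
    {p : ℂ} (hp : p ∈ U) :
    ∃ f g : ℂ → ℂ, DifferentiableOn ℂ f (ball 0 1) ∧ DifferentiableOn ℂ g U ∧ f 0 = p ∧
      MapsTo f (ball 0 1) U ∧ MapsTo g U (ball 0 1) ∧ (∀ z ∈ ball (0 : ℂ) 1, g (f z) = z) ∧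
      (∀ w ∈ U, f (g w) = w) := by
  obtain ⟨G, hG, hG0, hmax⟩ := exists_max hUo hUc hU hp
  have hsurj : ∀ w ∈ ball (0 : ℂ) 1, w ∈ G '' U := by
    intro w hw
    by_contra hcon
    obtain ⟨g', h1, h2, h3⟩ := improve hUo hUc hp hG hG0 (mem_ball_zero_iff.1 hw) hcon
    exact absurd (hmax g' h1 h2) (not_le.2 h3)
  have hinv : ∀ w ∈ U, invFunOn G U (G w) = w := fun w hw => hG.2.1.leftInvOn_invFunOn hw
  refine ⟨invFunOn G U, G, fun w hw => ?_, hG.diffOn, by rw [← hG0, hinv p hp],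
    fun w hw => invFunOn_mem (hsurj w hw), hG.1, fun w hw => invFunOn_eq (hsurj w hw), hinv⟩
  obtain ⟨z, hz, rfl⟩ := hsurj w hw
  have h1 := ((hG.diffOn.analyticOnNhd hUo z hz).hasStrictDerivAt.to_local_left_inverse
    (hG.2.2 z hz) (g := invFunOn G U) (by
      filter_upwards [hUo.mem_nhds hz] with y hy using hinv y hy))
  exact h1.hasDerivAt.differentiableAt.differentiableWithinAt

end Vale.Agent.P071
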