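import Vale.Agent.P071.Core
import Vale.Agent.P071.RMT
import Vale.Agent.P071.Poincare

/-!
Transplanting the eigenvalue problem from a simply connected domain to the unit disc.
-/

open MeasureTheory Complex Set Metric Filter Topology
open scoped ComplexConjugate ContDiff

namespace Vale.Agent.P071

theorem det_wl (a : ℂ) : (wl a 0).det = ‖a‖ ^ 2 := by
  rw [ContinuousLinearMap.det, ← LinearMap.det_toMatrix basisOneI, Matrix.det_fin_two,
    ← normSq_eq_norm_sq, normSq_apply]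
  simp [LinearMap.toMatrix_apply]

theorem hasWeakDeriv_of_contDiffOn {Ω : Set ℂ} (ho : IsOpen Ω) {w : ℂ → ℝ}
    (hw : ContDiffOn ℝ 1 w Ω) (e : ℂ) : HasWeakDeriv Ω e w fun z => fderiv ℝ w z e := by
  intro φ h1 h2 h3
  have hc : ContinuousOn (fun z => fderiv ℝ w z e) Ω :=
    (hw.continuousOn_fderiv_of_isOpen ho le_rfl).clm_apply continuousOn_const
  have hφ' : Continuous fun z => fderiv ℝ φ z e :=
    (h1.continuous_fderiv (by simp)).clm_apply continuous_const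
  have h0 : ∀ z ∉ tsupport φ, φ z = 0 := fun z hz => image_eq_zero_of_notMem_tsupport hz
  have h0' : ∀ z ∉ tsupport φ, fderiv ℝ φ z e = 0 := fun z hz => by
    rw [(notMem_tsupport_iff_eventuallyEq.1 hz).fderiv_eq]; simp
  have hi : ∀ {F ψ : ℂ → ℝ}, ContinuousOn F Ω → Continuous ψ → (∀ z ∉ tsupport φ, ψ z = 0) →
      Integrable fun z => F z * ψ z := fun hF hψ hz =>
    (((hF.mono h3).mul hψ.continuousOn).integrableOn_compact h2).integrable_of_forall_notMem_eq_zero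
      fun z hz' => by simp [hz z hz']
  rw [setIntegral_eq_integral_of_forall_compl_eq_zero fun z hz => by simp [h0' z fun h => hz (h3 h)],
    setIntegral_eq_integral_of_forall_compl_eq_zero fun z hz => by simp [h0 z fun h => hz (h3 h)]]
  exact integral_mul_fderiv_eq_neg_fderiv_mul_of_integrable (hi hc h1.continuous h0)
    (hi hw.continuousOn hφ' h0') (hi hw.continuousOn h1.continuous h0)
    (fun z hz => (hw.contDiffAt (ho.mem_nhds (h3 hz))).differentiableAt one_ne_zero)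
    (fun z _ => h1.differentiable (by simp) z)

theorem memH1_of_contDiffOn {Ω : Set ℂ} (ho : IsOpen Ω) {w : ℂ → ℝ} (hw : ContDiffOn ℝ 1 w Ω)
    (h1 : IntegrableOn (fun z => w z ^ 2) Ω)
    (h2 : IntegrableOn (fun z => fderiv ℝ w z 1 ^ 2 + fderiv ℝ w z I ^ 2) Ω) :
    MemH1 Ω w (fun z => fderiv ℝ w z 1) (fun z => fderiv ℝ w z I) := by
  have hc : ∀ e, AEStronglyMeasurable (fun z => fderiv ℝ w z e) (volume.restrict Ω) := fun e =>
    ((hw.continuousOn_fderiv_of_isOpen ho le_rfl).clm_apply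
      continuousOn_const).aestronglyMeasurable ho.measurableSet
  refine ⟨(memLp_two_iff_integrable_sq (hw.continuousOn.aestronglyMeasurable ho.measurableSet)).2 h1,
    (memLp_two_iff_integrable_sq (hc 1)).2 (h2.mono' ((hc 1).pow 2) (Eventually.of_forall fun z => ?_)),
    (memLp_two_iff_integrable_sq (hc I)).2 (h2.mono' ((hc I).pow 2) (Eventually.of_forall fun z => ?_)),
    hasWeakDeriv_of_contDiffOn ho hw 1, hasWeakDeriv_of_contDiffOn ho hw I⟩
  · rw [Real.norm_of_nonneg (sq_nonneg _)]; linarith [sq_nonneg (fderiv ℝ w z I)]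
  · rw [Real.norm_of_nonneg (sq_nonneg _)]; linarith [sq_nonneg (fderiv ℝ w z 1)]

theorem weakDeriv_ae_eq {Ω : Set ℂ} (ho : IsOpen Ω) {w g : ℂ → ℝ} (hw : ContDiffOn ℝ 1 w Ω) {e : ℂ}
    (hg : MemLp g 2 (volume.restrict Ω)) (h : HasWeakDeriv Ω e w g) :
    g =ᵐ[volume.restrict Ω] fun z => fderiv ℝ w z e := by
  have hc : ContinuousOn (fun z => fderiv ℝ w z e) Ω :=
    (hw.continuousOn_fderiv_of_isOpen ho le_rfl).clm_apply continuousOn_const
  have hl : LocallyIntegrableOn g Ω := fun x hx => by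
    obtain ⟨s, hs, hi⟩ := hg.locallyIntegrable (by norm_num) x
    refine ⟨s ∩ Ω, inter_mem (mem_nhdsWithin_of_mem_nhds hs) self_mem_nhdsWithin, ?_⟩
    rw [IntegrableOn, ← Measure.restrict_restrict' ho.measurableSet]
    exact hi
  have h1 := ho.ae_eq_zero_of_integral_contDiff_smul_eq_zero (μ := volume)
    (hl.sub (hc.locallyIntegrableOn ho.measurableSet)) fun φ h1 h2 h3 => by
      have e1 := h φ h1 h2 h3
      rw [hasWeakDeriv_of_contDiffOn ho hw e φ h1 h2 h3, neg_inj] at e1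
      have h0 : ∀ z ∉ tsupport φ, φ z = 0 := fun z hz => image_eq_zero_of_notMem_tsupport hz
      have i1 : Integrable (fun z => g z * φ z) (volume.restrict Ω) :=
        hg.integrable_mul (h1.continuous.memLp_of_hasCompactSupport (p := 2) h2)
      have i2 : Integrable fun z => fderiv ℝ w z e * φ z :=
        (((hc.mono h3).mul h1.continuous.continuousOn).integrableOn_compact
          h2).integrable_of_forall_notMem_eq_zero fun z hz' => by simp [h0 z hz']
      rw [← setIntegral_eq_integral_of_forall_compl_eq_zero (s := Ω) fun z hz => by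
        simp [h0 z fun h => hz (h3 h)], ← sub_eq_zero.2 e1.symm, ← integral_sub i1 i2.integrableOn]
      congr 1; funext z
      simp only [Pi.sub_apply, smul_eq_mul]; ring
  filter_upwards [(ae_restrict_iff' ho.measurableSet).2 h1] with z hz using sub_eq_zero.1 hz

theorem rayleigh {Ω : Set ℂ} {v g₁ g₂ : ℂ → ℝ} (h : MemH1 Ω v g₁ g₂) (h0 : ∫ z in Ω, v z = 0) :
    mu1 Ω * ∫ z in Ω, v z ^ 2 ≤ ∫ z in Ω, (g₁ z ^ 2 + g₂ z ^ 2) := by
  rcases (show 0 ≤ ∫ z in Ω, v z ^ 2 from integral_nonneg fun z => sq_nonneg _).eq_or_lt with h1 | h1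
  · rw [← h1, mul_zero]; exact integral_nonneg fun z => by positivity
  · rw [← le_div_iff₀ h1]
    refine csInf_le ⟨0, ?_⟩ ⟨v, g₁, g₂, h, h1.ne', h0, rfl⟩
    rintro R ⟨v, g₁, g₂, -, -, -, rfl⟩
    exact div_nonneg (integral_nonneg fun z => by positivity) (integral_nonneg fun z => by positivity)

theorem hasW_real {w : ℂ → ℝ} {x : ℂ} (hw : DifferentiableAt ℝ w x) :
    HasW (fun z => (w z : ℂ)) ((fderiv ℝ w x 1 - I * fderiv ℝ w x I) / 2)
      ((fderiv ℝ w x 1 + I * fderiv ℝ w x I) / 2) x := by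
  have h := ofRealCLM.hasFDerivAt.comp x hw.hasFDerivAt
  have e := wl_eq (ofRealCLM.comp (fderiv ℝ w x))
  simp only [ContinuousLinearMap.comp_apply, ofRealCLM_apply] at e
  rw [HasW, e]
  exact h

/-- a conformal map of the unit disc onto `Ω` with its inverse -/
structure Conf (Ω : Set ℂ) (f g : ℂ → ℂ) : Prop where
  ho : IsOpen Ω
  hf : DifferentiableOn ℂ f (ball 0 1)
  hg : DifferentiableOn ℂ g Ω
  mf : MapsTo f (ball 0 1) Ω
  mg : MapsTo g Ω (ball 0 1)
  gf : ∀ z ∈ ball (0 : ℂ) 1, g (f z) = z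
  fg : ∀ w ∈ Ω, f (g w) = w

namespace Conf
variable {Ω : Set ℂ} {f g : ℂ → ℂ}

theorem hasDerivAt (h : Conf Ω f g) {z : ℂ} (hz : z ∈ ball (0 : ℂ) 1) : HasDerivAt f (deriv f z) z :=
  (h.hf.differentiableAt (isOpen_ball.mem_nhds hz)).hasDerivAt

theorem image (h : Conf Ω f g) : f '' ball 0 1 = Ω :=
  h.mf.image_subset.antisymm fun w hw => ⟨g w, h.mg hw, h.fg w hw⟩

theorem injOn (h : Conf Ω f g) : InjOn f (ball 0 1) := fun z hz z' hz' e => by
  rw [← h.gf z hz, e, h.gf z' hz']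

theorem deriv_ne (h : Conf Ω f g) {z : ℂ} (hz : z ∈ ball (0 : ℂ) 1) : deriv f z ≠ 0 := by
  intro h0
  have h1 := (h.hg.differentiableAt (h.ho.mem_nhds (h.mf hz))).hasDerivAt.comp z (h.hasDerivAt hz)
  have h2 : HasDerivAt (g ∘ f) 1 z := (hasDerivAt_id z).congr_of_eventuallyEq (by
    filter_upwards [isOpen_ball.mem_nhds hz] with w hw using h.gf w hw)
  simpa [h0] using h1.unique h2

theorem cov (h : Conf Ω f g) {F H : ℂ → ℝ} (e : ∀ z ∈ Ds, ‖deriv f z‖ ^ 2 * F (f z) = H z) :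
    ∫ z in Ω, F z = ∫ z in Ds, H z := by
  conv_lhs => rw [← h.image]
  rw [integral_image_eq_integral_abs_det_fderiv_smul volume measurableSet_ball
    (fun z hz => (HasW.of_hasDerivAt (h.hasDerivAt hz)).hasFDerivWithinAt) h.injOn, ← restrict_Ds]
  exact setIntegral_congr_fun measurableSet_Ds fun z hz => by simp [det_wl, e z hz]

theorem cov_int (h : Conf Ω f g) {F H : ℂ → ℝ} (e : ∀ z ∈ Ds, ‖deriv f z‖ ^ 2 * F (f z) = H z) :
    IntegrableOn F Ω ↔ IntegrableOn H Ds := by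
  conv_lhs => rw [← h.image]
  rw [integrableOn_image_iff_integrableOn_abs_det_fderiv_smul volume measurableSet_ball
    (fun z hz => (HasW.of_hasDerivAt (h.hasDerivAt hz)).hasFDerivWithinAt) h.injOn, IntegrableOn,
    ← restrict_Ds]
  exact integrableOn_congr_fun (fun z hz => by simp [det_wl, e z hz]) measurableSet_Ds

theorem dz_comp (h : Conf Ω f g) {w : ℂ → ℝ} (hw : ContDiffOn ℝ 1 w Ω) {a : ℂ → ℂ}
    (e : ∀ z ∈ ball (0 : ℂ) 1, a z = w (f z)) {z : ℂ} (hz : z ∈ ball (0 : ℂ) 1) :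
    dz a z = (fderiv ℝ w (f z) 1 - I * fderiv ℝ w (f z) I) / 2 * deriv f z :=
  (((hasW_real ((hw.contDiffAt (h.ho.mem_nhds (h.mf hz))).differentiableAt one_ne_zero)).comp_hol
    (h.hasDerivAt hz)).congr_of_eventuallyEq (by
      filter_upwards [isOpen_ball.mem_nhds hz] with y hy using e y hy)).dz_eq

theorem grad_mul (h : Conf Ω f g) {w w' : ℂ → ℝ} (hw : ContDiffOn ℝ 1 w Ω)
    (hw' : ContDiffOn ℝ 1 w' Ω) {a a' : ℂ → ℂ} (e : ∀ z ∈ ball (0 : ℂ) 1, a z = w (f z))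
    (e' : ∀ z ∈ ball (0 : ℂ) 1, a' z = w' (f z)) {z : ℂ} (hz : z ∈ Ds) :
    ‖deriv f z‖ ^ 2 * (fderiv ℝ w (f z) 1 * fderiv ℝ w' (f z) 1 +
      fderiv ℝ w (f z) I * fderiv ℝ w' (f z) I) = 4 * (dz a z * conj (dz a' z)).re := by
  rw [h.dz_comp hw e (Ds_subset hz), h.dz_comp hw' e' (Ds_subset hz)]
  apply ofReal_injective
  push_cast
  simp only [nsq, re_eq_add_conj, map_sub, map_mul, conj_conj, map_div₀, conj_ofNat, conj_ofReal,
    conj_I, map_neg, neg_neg]
  linear_combination (deriv f z * conj (deriv f z) * fderiv ℝ w (f z) I * fderiv ℝ w' (f z) I) *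
    I_mul_I

theorem grad_sq (h : Conf Ω f g) {w : ℂ → ℝ} (hw : ContDiffOn ℝ 1 w Ω)
    {a : ℂ → ℂ} (e : ∀ z ∈ ball (0 : ℂ) 1, a z = w (f z)) {z : ℂ} (hz : z ∈ Ds) :
    ‖deriv f z‖ ^ 2 * (fderiv ℝ w (f z) 1 ^ 2 + fderiv ℝ w (f z) I ^ 2) = 4 * ‖dz a z‖ ^ 2 := by
  rw [sq (fderiv ℝ w (f z) 1), sq (fderiv ℝ w (f z) I), h.grad_mul hw hw e e hz, mul_conj,
    ofReal_re, normSq_eq_norm_sq]

theorem val_sq {w : ℂ → ℝ} {a : ℂ → ℂ} (e : ∀ z ∈ ball (0 : ℂ) 1, a z = w (f z)) {z : ℂ}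
    (hz : z ∈ Ds) : ‖deriv f z‖ ^ 2 * w (f z) ^ 2 = ‖deriv f z * a z‖ ^ 2 := by
  rw [e z (Ds_subset hz), norm_mul, mul_pow, norm_real, Real.norm_eq_abs, sq_abs]

theorem p_hw (h : Conf Ω f g) (hb : Bornology.IsBounded Ω) : HW (deriv f) :=
  HW.of_ball (h.hf.deriv isOpen_ball).continuousOn
    ((h.cov_int (F := fun _ => 1) fun z _ => mul_one _).1 (integrableOn_const hb.measure_lt_top.ne))

theorem push (h : Conf Ω f g) (hb : Bornology.IsBounded Ω) {a : ℂ → ℂ}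
    (ha : ContDiffOn ℝ 1 a (ball 0 1)) (har : ∀ z ∈ ball (0 : ℂ) 1, conj (a z) = a z) (hab : Bd a)
    (had : HW (dz a)) : ∃ w : ℂ → ℝ, ContDiffOn ℝ 1 w Ω ∧ (∀ z ∈ ball (0 : ℂ) 1, a z = w (f z)) ∧
      MemH1 Ω w (fun z => fderiv ℝ w z 1) (fun z => fderiv ℝ w z I) := by
  have hw : ContDiffOn ℝ 1 (fun x => (a (g x)).re) Ω := reCLM.contDiff.comp_contDiffOn
    (ha.comp ((h.hg.contDiffOn h.ho (n := 1)).restrict_scalars ℝ) h.mg)
  have e : ∀ z ∈ ball (0 : ℂ) 1, a z = (a (g (f z))).re := fun z hz => by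
    rw [h.gf z hz, conj_eq_iff_re.1 (har z hz)]
  exact ⟨_, hw, e, memH1_of_contDiffOn h.ho hw
    ((h.cov_int fun z hz => val_sq (w := fun x => (a (g x)).re) e hz).2
      ((h.p_hw hb).mul_bd hab).sq)
    ((h.cov_int fun z hz => h.grad_sq hw e hz).2 (had.sq.const_mul 4))⟩

theorem poinc (h : Conf Ω f g) (hb : Bornology.IsBounded Ω) (hμ : 0 < mu1 Ω) :
    Poinc (mu1 Ω) f (deriv f) where
  mu_pos := hμ
  hf := fun _ hz => h.hasDerivAt hz
  hp := h.hf.deriv isOpen_ball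
  p_ne := fun _ hz => h.deriv_ne hz
  p_hw := h.p_hw hb
  P := fun a ha har hab had h0 => by
    obtain ⟨w, hw, e, hH⟩ := h.push hb ha har hab had
    have := rayleigh hH (by
      rw [← h0]; exact h.cov fun z hz => by rw [e z (Ds_subset hz), ofReal_re])
    rwa [h.cov fun z hz => val_sq e hz, h.cov fun z hz => h.grad_sq hw e hz,
      integral_const_mul] at this

theorem no_crit (h : Conf Ω f g) (hb : Bornology.IsBounded Ω) (hμ : 0 < mu1 Ω) {u : ℂ → ℝ}
    (hu : ContDiffOn ℝ 2 u Ω) (hw : IsWeakNeumannSolution Ω (mu1 Ω) u)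
    (h0 : fderiv ℝ u (f 0) = 0) : ∀ x ∈ Ω, u x = 0 := by
  obtain ⟨g₁, g₂, hH, hN⟩ := hw
  have hP := h.poinc hb hμ
  have hu1 : ContDiffOn ℝ 1 u Ω := hu.of_le (by norm_num)
  have a1 := weakDeriv_ae_eq h.ho hu1 hH.2.1 hH.2.2.2.1
  have a2 := weakDeriv_ae_eq h.ho hu1 hH.2.2.1 hH.2.2.2.2
  have hN' : ∀ v h₁ h₂ : ℂ → ℝ, MemH1 Ω v h₁ h₂ →
      ∫ z in Ω, (fderiv ℝ u z 1 * h₁ z + fderiv ℝ u z I * h₂ z) = mu1 Ω * ∫ z in Ω, u z * v z := by
    intro v h₁ h₂ hv
    rw [← hN v h₁ h₂ hv]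
    refine integral_congr_ae ?_
    filter_upwards [a1, a2] with z e1 e2
    rw [e1, e2]
  have i1 : IntegrableOn (fun z => u z ^ 2) Ω := hH.1.integrable_sq
  have i2 : IntegrableOn (fun z => fderiv ℝ u z 1 ^ 2 + fderiv ℝ u z I ^ 2) Ω :=
    ((memLp_congr_ae a1).1 hH.2.1).integrable_sq.add ((memLp_congr_ae a2).1 hH.2.2.1).integrable_sq
  have e : ∀ z ∈ ball (0 : ℂ) 1, (fun z => (u (f z) : ℂ)) z = u (f z) := fun _ _ => rfl
  have hv : ContDiffOn ℝ 2 (fun z => (u (f z) : ℂ)) (ball 0 1) :=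
    ofRealCLM.contDiff.comp_contDiffOn (hu.comp (hP.contDiffOn_f (n := 2)) h.mf)
  have j1 := (h.cov_int fun z hz => val_sq e hz).1 i1
  have j2 : IntegrableOn (fun z => ‖dz (fun z => (u (f z) : ℂ)) z‖ ^ 2) Ds :=
    (((h.cov_int fun z hz => h.grad_sq hu1 e hz).1 i2).const_mul (1 / 4)).congr
      (Eventually.of_forall fun z => by ring)
  have key := hP.eig_zero hv (fun z => conj_ofReal _) j2 j1 (fun a ha har => by
      have bd := Bd.of_contDiff (contDiff_dz ha)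
      obtain ⟨w, hw, e', hH'⟩ := h.push hb (ha.contDiffOn.of_le (by simp)) (fun z _ => har z)
        (Bd.of_contDiff ha) bd.hw
      have k := hN' _ _ _ hH'
      rw [h.cov fun z hz => h.grad_mul hu1 hw e e' hz,
        h.cov (H := fun z => (deriv f z * conj (deriv f z) * u (f z) * a z).re) fun z hz => by
          rw [e' z (Ds_subset hz), mul_conj, normSq_eq_norm_sq]
          norm_cast; ring, integral_const_mul] at k
      have l1 := ((HW.of_ball (contDiffOn_dz (m := 0) isOpen_ball hv (by norm_num)).continuousOn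
        j2).mul_bd bd.cj).l1.re
      have l2 := ((hP.p_hw.cj.mul (HW.of_ball ((hP.contDiffOn_p (n := 2)).mul hv).continuousOn
        j1)).mul_bd (Bd.of_contDiff ha)).congr
        (H := fun z => deriv f z * conj (deriv f z) * u (f z) * a z) fun z _ => by ring
      have l3 := (IL.of l1 4).add (IL.of l2.re (-mu1 Ω))
      rw [k, show ∀ x y : ℝ, x * y + -x * y = 0 from fun x y => by ring] at l3
      rw [← l3.2]
      congr 1; funext z
      rw [dzb_eq_conj_dz (ha.differentiable (by simp) z) (Eventually.of_forall har), sub_re,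
        re_ofReal_mul, show (4 : ℂ) = (4 : ℝ) by norm_num, re_ofReal_mul]
      ring)
    (by
      have k := hN' _ _ _ (memH1_of_contDiffOn h.ho hu1 i1 i2)
      simp only [← sq] at k
      rw [h.cov fun z hz => h.grad_sq hu1 e hz, h.cov fun z hz => val_sq e hz,
        integral_const_mul] at k
      exact k.symm)
    (by rw [h.dz_comp hu1 e (mem_ball_self one_pos), h0]; simp)
  intro x hx
  have := key (g x) (h.mg hx)
  rwa [h.fg x hx, ofReal_eq_zero] at this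

end Conf

/-- a nonzero first Neumann eigenfunction on a simply connected domain has no critical point -/
theorem fderiv_ne_zero {Ω : Set ℂ} (ho : IsOpen Ω) (hb : Bornology.IsBounded Ω)
    (hs : IsSimplyConnected Ω) (hμ : 0 < mu1 Ω) {u : ℂ → ℝ} (hu : ContDiffOn ℝ 2 u Ω)
    (hw : IsWeakNeumannSolution Ω (mu1 Ω) u) (hne : ∃ x ∈ Ω, u x ≠ 0) :
    ∀ x ∈ Ω, fderiv ℝ u x ≠ 0 := by
  intro x hx h0
  obtain ⟨f, g, h1, h2, h3, h4, h5, h6, h7⟩ := riemann_mapping ho hs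
    (fun e => NormedSpace.unbounded_univ ℝ ℂ (e ▸ hb)) hx
  obtain ⟨y, hy, hy0⟩ := hne
  exact hy0 (Conf.no_crit ⟨ho, h1, h2, h4, h5, h6, h7⟩ hb hμ hu hw (h3 ▸ h0) y hy)

theorem hot_spots {Ω : Set ℂ} (ho : IsOpen Ω) (hb : Bornology.IsBounded Ω) (hn : Ω.Nonempty)
    {u : ℂ → ℝ} (hc : ContinuousOn u (closure Ω)) (hd : ∀ x ∈ Ω, fderiv ℝ u x ≠ 0) :
    ∃ a ∈ frontier Ω, ∃ b ∈ frontier Ω, IsMinOn u (frontier Ω) a ∧ IsMaxOn u (frontier Ω) b ∧
      ∀ x ∈ Ω, u a < u x ∧ u x < u b := by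
  have hK := hb.isCompact_closure
  obtain ⟨a, ha, hma⟩ := hK.exists_isMinOn hn.closure hc
  obtain ⟨b, hb', hmb⟩ := hK.exists_isMaxOn hn.closure hc
  have h1 : ∀ x ∈ Ω, u a < u x := fun x hx => lt_of_not_ge fun h => hd x hx
    (IsLocalMin.fderiv_eq_zero (by
      filter_upwards [ho.mem_nhds hx] with y hy using h.trans (hma (subset_closure hy))))
  have h2 : ∀ x ∈ Ω, u x < u b := fun x hx => lt_of_not_ge fun h => hd x hx
    (IsLocalMax.fderiv_eq_zero (by
      filter_upwards [ho.mem_nhds hx] with y hy using (hmb (subset_closure hy)).trans h))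
  refine ⟨a, ?_, b, ?_, hma.on_subset frontier_subset_closure, hmb.on_subset frontier_subset_closure,
    fun x hx => ⟨h1 x hx, h2 x hx⟩⟩
  · rw [ho.frontier_eq]; exact ⟨ha, fun h => (h1 a h).false⟩
  · rw [ho.frontier_eq]; exact ⟨hb', fun h => (h2 b h).false⟩

end Vale.Agent.P071
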