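import Vale.Agent.P071.Poly

/-!
From the Neumann Poincare inequality in the conformal disc model to the inequality for
tangential one-forms.
-/

open MeasureTheory Complex Set Metric Filter Topology
open scoped ComplexConjugate ContDiff

namespace Vale.Agent.P071

/-- an integrable function together with its integral -/
def IL (f : ℂ → ℝ) (J : ℝ) : Prop := IntegrableOn f Ds ∧ ∫ z in Ds, f z = J

theorem IL.of {f : ℂ → ℝ} (h : IntegrableOn f Ds) (c : ℝ) :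
    IL (fun z => c * f z) (c * ∫ z in Ds, f z) := ⟨h.const_mul c, integral_const_mul _ _⟩

theorem IL.ofZ {Z : ℂ → ℂ} (h : L1 Z) (h0 : ∫ z in Ds, Z z = 0) (c : ℝ) :
    IL (fun z => c * (Z z).re) 0 := by
  have := integral_re h.2
  simp only [RCLike.re_to_complex] at this
  exact ⟨h.re.const_mul c, by rw [integral_const_mul, this, h0, zero_re, mul_zero]⟩

theorem IL.add {f g : ℂ → ℝ} {J K : ℝ} (h : IL f J) (h' : IL g K) :
    IL (fun z => f z + g z) (J + K) := ⟨h.1.add h'.1, by rw [integral_add h.1 h'.1, h.2, h'.2]⟩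

theorem IL.nonneg {f : ℂ → ℝ} {J : ℝ} (h : IL f J) (h0 : ∀ z ∈ Ds, 0 ≤ f z) : 0 ≤ J :=
  h.2 ▸ setIntegral_nonneg measurableSet_Ds h0

theorem IL.zero {f : ℂ → ℝ} {J : ℝ} (h : IL f J) (h0 : ∀ z ∈ Ds, f z = 0) : J = 0 :=
  h.2 ▸ setIntegral_eq_zero_of_forall_eq_zero h0

theorem nsq (x : ℂ) : ((‖x‖ : ℝ) : ℂ) ^ 2 = x * conj x := (mul_conj' x).symm

theorem dzb_eq_conj_dz {a : ℂ → ℂ} {z : ℂ} (hd : DifferentiableAt ℝ a z)
    (hr : ∀ᶠ w in 𝓝 z, conj (a w) = a w) : dzb a z = conj (dz a z) :=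
  (hd.hasW.cj.congr_of_eventuallyEq (hr.mono fun _ h => h.symm)).dzb_eq

theorem conj_dzb_dz {a : ℂ → ℂ} {z : ℂ} (hd : ContDiffAt ℝ 2 a z)
    (hr : ∀ᶠ w in 𝓝 z, conj (a w) = a w) : conj (dzb (dz a) z) = dzb (dz a) z := by
  obtain ⟨U, hU, hUo, hzU⟩ :=
    _root_.eventually_nhds_iff.1 ((hd.eventually (by simp)).and hr.eventually_nhds)
  have h1 : ContDiffOn ℝ 2 a U := fun w hw => (hU w hw).1.contDiffWithinAt
  have h2 : DifferentiableAt ℝ (dz a) z :=
    ((contDiffOn_dz (m := 1) hUo h1 (by norm_num)).contDiffAt (hUo.mem_nhds hzU)).differentiableAt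
      one_ne_zero
  have h3 : dzb a =ᶠ[𝓝 z] fun w => conj (dz a w) := by
    filter_upwards [hUo.mem_nhds hzU] with w hw
    exact dzb_eq_conj_dz ((hU w hw).1.differentiableAt (by simp)) (hU w hw).2
  rw [← (h2.hasW.cj.congr_of_eventuallyEq h3).dz_eq, dzb_dz_comm hd]

/-- the conformal disc model with its Poincare inequality -/
structure Poinc (μ : ℝ) (f p : ℂ → ℂ) : Prop where
  mu_pos : 0 < μ
  hf : ∀ z ∈ ball (0 : ℂ) 1, HasDerivAt f (p z) z
  hp : DifferentiableOn ℂ p (ball 0 1)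
  p_ne : ∀ z ∈ ball (0 : ℂ) 1, p z ≠ 0
  p_hw : HW p
  P : ∀ a : ℂ → ℂ, ContDiffOn ℝ 1 a (ball 0 1) → (∀ z ∈ ball (0 : ℂ) 1, conj (a z) = a z) → Bd a →
    HW (dz a) → ∫ z in Ds, ‖p z‖ ^ 2 * (a z).re = 0 →
    μ * ∫ z in Ds, ‖p z * a z‖ ^ 2 ≤ 4 * ∫ z in Ds, ‖dz a z‖ ^ 2

namespace Poinc
variable {μ : ℝ} {f p : ℂ → ℂ}

theorem hasW_p (h : Poinc μ f p) {z : ℂ} (hz : z ∈ ball (0 : ℂ) 1) : HasW p (deriv p z) 0 z :=
  HasW.of_hasDerivAt (h.hp.differentiableAt (isOpen_ball.mem_nhds hz)).hasDerivAt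

theorem contDiffOn_p (h : Poinc μ f p) {n : ℕ∞} : ContDiffOn ℝ n p (ball 0 1) :=
  ((h.hp.contDiffOn isOpen_ball (n := n)).restrict_scalars ℝ)

theorem contDiffOn_f (h : Poinc μ f p) {n : ℕ∞} : ContDiffOn ℝ n f (ball 0 1) :=
  ((DifferentiableOn.contDiffOn (fun z hz => (h.hf z hz).differentiableAt.differentiableWithinAt)
    isOpen_ball (n := n)).restrict_scalars ℝ)

theorem p_pos (h : Poinc μ f p) : 0 < ∫ z in Ds, ‖p z‖ ^ 2 := by
  rw [setIntegral_pos_iff_support_of_nonneg_ae (Eventually.of_forall fun z => by positivity)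
    h.p_hw.sq]
  have : (Function.support fun z => ‖p z‖ ^ 2) ∩ Ds = Ds :=
    inter_eq_right.2 fun z hz => by simpa using h.p_ne z (Ds_subset hz)
  rw [this]
  exact isOpen_Ds.measure_pos _ ⟨1 / 2, by norm_num [Ds]⟩

theorem int_weight (h : Poinc μ f p) {a : ℂ → ℂ} (ha : Bd a) :
    IntegrableOn (fun z => ‖p z‖ ^ 2 * (a z).re) Ds :=
  ((h.p_hw.mul h.p_hw.cj).mul_bd ha).re.congr_fun
    (fun z _ => by simp only [mul_conj, normSq_eq_norm_sq, re_ofReal_mul]) measurableSet_Ds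

theorem filonov_aux (h : Poinc μ f p) {b : ℂ → ℂ} (hb : ContDiff ℝ ∞ b)
    (hbr : ∀ z, conj (b z) = b z) {κ : ℝ} (hκ : κ ^ 2 < μ)
    (hlt : 4 * ∫ z in Ds, ‖dz (fun w => (1 - w * conj w) * b w) z‖ ^ 2 <
      κ ^ 2 * ∫ z in Ds, ‖p z * ((1 - z * conj z) * b z)‖ ^ 2)
    (hne : ∫ z in Ds, ‖p z‖ ^ 2 * ((1 - z * conj z) * b z).re ≠ 0)
    {C S : ℂ → ℂ} (hC : ContDiffOn ℝ 1 C (ball 0 1)) (hS : ContDiffOn ℝ 1 S (ball 0 1))
    (hCr : ∀ z, conj (C z) = C z) (hSr : ∀ z, conj (S z) = S z) (hCb : Bd C) (hSb : Bd S)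
    (hCS : ∀ z, C z ^ 2 + S z ^ 2 = 1)
    (hCw : ∀ z ∈ ball (0 : ℂ) 1, HasW C (-(κ * S z * p z / 2)) (-(κ * S z * conj (p z) / 2)) z)
    (hSw : ∀ z ∈ ball (0 : ℂ) 1, HasW S (κ * C z * p z / 2) (κ * C z * conj (p z) / 2) z)
    (hle : ∫ z in Ds, ‖p z * S z‖ ^ 2 ≤ ∫ z in Ds, ‖p z * C z‖ ^ 2) : False := by
  set B : ℂ → ℂ := fun w => (1 - w * conj w) * b w with hB
  have hBs : ContDiff ℝ ∞ B := by rw [hB]; fun_prop
  have hBr : ∀ z, conj (B z) = B z := fun z => by simp [hB, hbr, mul_comm]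
  have hBb := Bd.of_contDiff hBs
  have hdB := Bd.of_contDiff (contDiff_dz hBs)
  replace hne : ∫ z in Ds, ‖p z‖ ^ 2 * (B z).re ≠ 0 := hne
  replace hlt : 4 * ∫ z in Ds, ‖dz B z‖ ^ 2 < κ ^ 2 * ∫ z in Ds, ‖p z * B z‖ ^ 2 := hlt
  obtain ⟨α, hα⟩ : ∃ α : ℝ, α * (∫ z in Ds, ‖p z‖ ^ 2 * (B z).re) +
      ∫ z in Ds, ‖p z‖ ^ 2 * (C z).re = 0 := ⟨-(∫ z in Ds, ‖p z‖ ^ 2 * (C z).re) /
        ∫ z in Ds, ‖p z‖ ^ 2 * (B z).re, by field_simp; ring⟩
  have hda : ∀ z ∈ Ds, dz (fun w => α * B w + C w) z = α * dz B z - κ * S z * p z / 2 :=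
    fun z hz => by rw [(((hBs.hasW z).const_mul α).add (hCw z (Ds_subset hz))).dz_eq]; ring
  have hab : Bd fun w => α * B w + C w := ((Bd.const _).mul hBb).add hCb
  have hdah : HW fun z => α * dz B z - κ * S z * p z / 2 :=
    (((Bd.const _).mul hdB).hw.sub (h.p_hw.bd_mul ((Bd.const (κ / 2)).mul hSb))).congr
      fun z _ => by ring
  have hP := h.P (fun w => α * B w + C w)
    ((contDiff_const.mul hBs).contDiffOn.of_le (by simp) |>.add hC)
    (fun z _ => by simp [hBr, hCr]) hab (hdah.congr hda) (by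
      rw [← hα, ← integral_const_mul, ← integral_add ((h.int_weight hBb).const_mul _)
        (h.int_weight hCb)]
      congr 1; funext z; simp; ring)
  have eP : ∫ z in Ds, ‖dz (fun w => α * B w + C w) z‖ ^ 2 =
      ∫ z in Ds, ‖α * dz B z - κ * S z * p z / 2‖ ^ 2 :=
    setIntegral_congr_fun measurableSet_Ds fun z hz => by simp only [hda z hz]
  rw [eP] at hP
  have hZ := ibp_b (F := fun z => b z * (S z * p z))
    (b := fun z => dzb b z * (S z * p z) + b z * (κ * C z * conj (p z) / 2 * p z))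
    (by
      have := (hb.of_le (show (1 : WithTop ℕ∞) ≤ ∞ by simp)).contDiffOn (s := Ds)
      have := hS.mono Ds_subset
      have := (h.contDiffOn_p (n := 1)).mono Ds_subset
      fun_prop)
    (fun z hz => ⟨_, ((hb.hasW z).mul ((hSw z (Ds_subset hz)).mul
      (h.hasW_p (Ds_subset hz)))).congr rfl (by ring)⟩)
    (((h.p_hw.bd_mul hSb).bd_mul (Bd.of_contDiff (contDiff_dzb hb))).l1.add
      (((h.p_hw.cj.mul h.p_hw).bd_mul ((Bd.of_contDiff hb).mul ((Bd.const (κ / 2)).mul hCb))).congr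
        fun z _ => by ring))
    ((h.p_hw.bd_mul hSb).bd_mul (Bd.of_contDiff hb)).div
  have hZi : L1 fun z => conj (dz B z) * (S z * p z) + B z * (κ * C z * conj (p z) / 2 * p z) :=
    ((h.p_hw.bd_mul hSb).bd_mul hdB.cj).l1.add
      (((h.p_hw.cj.mul h.p_hw).bd_mul (hBb.mul ((Bd.const (κ / 2)).mul hCb))).congr
        fun z _ => by ring)
  have hZ' : ∫ z in Ds, (conj (dz B z) * (S z * p z) +
      B z * (κ * C z * conj (p z) / 2 * p z)) = 0 := by
    rw [← hZ]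
    congr 1; funext z
    rw [← dzb_eq_conj_dz (hBs.differentiable (by simp) z) (Eventually.of_forall hBr),
      (hasW_van (hb.hasW z)).dzb_eq]
    simp only [hB]; ring
  have i1 := hdB.hw.sq
  have i2 := (h.p_hw.mul_bd hBb).sq
  have i3 := (h.p_hw.mul_bd hSb).sq
  have i4 := (h.p_hw.mul_bd hCb).sq
  have i5 := (h.p_hw.mul_bd hab).sq
  have key := (((((((IL.of hdah.sq 4).add (IL.of i5 (-κ ^ 2))).add (IL.of i1 (-4 * α ^ 2))).add
    (IL.of i2 (α ^ 2 * κ ^ 2))).add (IL.of i3 (-κ ^ 2))).add (IL.of i4 (κ ^ 2))).add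
    (IL.ofZ hZi hZ' (4 * α * κ))).zero fun z _ => by
      apply ofReal_injective
      push_cast
      simp only [nsq, re_eq_add_conj, map_add, map_sub, map_mul, map_div₀, conj_conj, conj_ofReal,
        hBr, hCr, hSr, conj_ofNat]
      ring
  have h5 : 0 ≤ ∫ z in Ds, ‖p z * (α * B z + C z)‖ ^ 2 := integral_nonneg fun z => by positivity
  have h6 : α ^ 2 * (4 * (∫ z in Ds, ‖dz B z‖ ^ 2) - κ ^ 2 * ∫ z in Ds, ‖p z * B z‖ ^ 2) ≤ 0 :=
    mul_nonpos_of_nonneg_of_nonpos (sq_nonneg _) (by linarith)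
  have h7 : κ ^ 2 * ((∫ z in Ds, ‖p z * S z‖ ^ 2) - ∫ z in Ds, ‖p z * C z‖ ^ 2) ≤ 0 :=
    mul_nonpos_of_nonneg_of_nonpos (sq_nonneg _) (by linarith)
  have h8 : (μ - κ ^ 2) * ∫ z in Ds, ‖p z * (α * B z + C z)‖ ^ 2 ≤
      α ^ 2 * (4 * (∫ z in Ds, ‖dz B z‖ ^ 2) - κ ^ 2 * ∫ z in Ds, ‖p z * B z‖ ^ 2) := by
    linarith
  have h9 : α = 0 := by
    by_contra hα0
    have := mul_neg_of_pos_of_neg (pow_pos (abs_pos.2 hα0) 2)
      (show 4 * (∫ z in Ds, ‖dz B z‖ ^ 2) - κ ^ 2 * ∫ z in Ds, ‖p z * B z‖ ^ 2 < 0 by linarith)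
    rw [sq_abs] at this
    nlinarith [mul_nonneg (sub_nonneg.2 hκ.le) h5]
  subst h9
  simp only [ofReal_zero, zero_mul, zero_add, ne_eq, OfNat.ofNat_ne_zero, not_false_eq_true,
    zero_pow] at h8
  have h10 : ∫ z in Ds, ‖p z * C z‖ ^ 2 ≤ 0 := nonpos_of_mul_nonpos_right h8 (by linarith)
  have h11 : (∫ z in Ds, ‖p z * C z‖ ^ 2) + ∫ z in Ds, ‖p z * S z‖ ^ 2 =
      ∫ z in Ds, ‖p z‖ ^ 2 := by
    rw [← integral_add i4 i3]
    congr 1; funext z
    apply ofReal_injective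
    push_cast
    simp only [nsq, map_mul, hCr, hSr]
    linear_combination (p z * conj (p z)) * hCS z
  linarith [h.p_pos]

/-- the Dirichlet inequality with the Neumann constant -/
theorem filonov (h : Poinc μ f p) {b : ℂ → ℂ} (hb : ContDiff ℝ ∞ b)
    (hbr : ∀ z, conj (b z) = b z) :
    μ * ∫ z in Ds, ‖p z * ((1 - z * conj z) * b z)‖ ^ 2 ≤
      4 * ∫ z in Ds, ‖dz (fun w => (1 - w * conj w) * b w) z‖ ^ 2 := by
  have hBs : ContDiff ℝ ∞ fun w => (1 - w * conj w) * b w := by fun_prop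
  by_cases hne : ∫ z in Ds, ‖p z‖ ^ 2 * ((1 - z * conj z) * b z).re = 0
  · exact h.P _ (hBs.contDiffOn.of_le (by simp)) (fun z _ => by simp [hbr, mul_comm])
      (Bd.of_contDiff hBs) (Bd.of_contDiff (contDiff_dz hBs)).hw hne
  by_contra hlt
  rw [not_le] at hlt
  have hD : 0 ≤ ∫ z in Ds, ‖dz (fun w => (1 - w * conj w) * b w) z‖ ^ 2 :=
    integral_nonneg fun z => by positivity
  generalize hN : ∫ z in Ds, ‖p z * ((1 - z * conj z) * b z)‖ ^ 2 = N at hlt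
  generalize hD' : ∫ z in Ds, ‖dz (fun w => (1 - w * conj w) * b w) z‖ ^ 2 = D at hlt hD
  have hN0 : 0 < N := pos_of_mul_pos_right (by linarith : 0 < μ * N) h.mu_pos.le
  have hl : 4 * D / N < μ := by rwa [div_lt_iff₀ hN0]
  have hl0 : 0 ≤ (4 * D / N + μ) / 2 := by have := h.mu_pos; positivity
  set κ := Real.sqrt ((4 * D / N + μ) / 2) with hκ
  have hκ2 : κ ^ 2 = (4 * D / N + μ) / 2 := Real.sq_sqrt hl0
  have hκμ : κ ^ 2 < μ := by linarith
  have hκN : 4 * D < κ ^ 2 * N := by rw [← div_lt_iff₀ hN0]; linarith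
  have hfc := h.contDiffOn_f (n := 1)
  have hre : ContDiffOn ℝ 1 (fun z => κ * (f z).re) (ball 0 1) :=
    contDiffOn_const.mul (reCLM.contDiff.comp_contDiffOn hfc)
  have hC : ContDiffOn ℝ 1 (fun z => (Real.cos (κ * (f z).re) : ℂ)) (ball 0 1) :=
    ofRealCLM.contDiff.comp_contDiffOn hre.cos
  have hS : ContDiffOn ℝ 1 (fun z => (Real.sin (κ * (f z).re) : ℂ)) (ball 0 1) :=
    ofRealCLM.contDiff.comp_contDiffOn hre.sin
  have hCb : Bd fun z => (Real.cos (κ * (f z).re) : ℂ) := ⟨hC.continuousOn.mono Ds_subset, 1,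
    fun z _ => by rw [norm_real]; exact Real.abs_cos_le_one _⟩
  have hSb : Bd fun z => (Real.sin (κ * (f z).re) : ℂ) := ⟨hS.continuousOn.mono Ds_subset, 1,
    fun z _ => by rw [norm_real]; exact Real.abs_sin_le_one _⟩
  have hCw : ∀ z ∈ ball (0 : ℂ) 1, HasW (fun z => (Real.cos (κ * (f z).re) : ℂ))
      (-(κ * (Real.sin (κ * (f z).re) : ℂ) * p z / 2))
      (-(κ * (Real.sin (κ * (f z).re) : ℂ) * conj (p z) / 2)) z := fun z hz =>
    ((HasW.of_hasDerivAt (h.hf z hz)).real_comp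
      (((hasDerivAt_id (f z).re).const_mul κ).cos)).congr (by simp; ring) (by simp; ring)
  have hSw : ∀ z ∈ ball (0 : ℂ) 1, HasW (fun z => (Real.sin (κ * (f z).re) : ℂ))
      (κ * (Real.cos (κ * (f z).re) : ℂ) * p z / 2)
      (κ * (Real.cos (κ * (f z).re) : ℂ) * conj (p z) / 2) z := fun z hz =>
    ((HasW.of_hasDerivAt (h.hf z hz)).real_comp
      (((hasDerivAt_id (f z).re).const_mul κ).sin)).congr (by simp [mul_comm]) (by simp [mul_comm])
  subst hN hD'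
  rcases le_total (∫ z in Ds, ‖p z * (Real.sin (κ * (f z).re) : ℂ)‖ ^ 2)
    (∫ z in Ds, ‖p z * (Real.cos (κ * (f z).re) : ℂ)‖ ^ 2) with hle | hle
  · exact h.filonov_aux hb hbr hκμ hκN hne hC hS (fun z => conj_ofReal _) (fun z => conj_ofReal _)
      hCb hSb (fun z => by exact_mod_cast Real.cos_sq_add_sin_sq _) hCw hSw hle
  · exact h.filonov_aux hb hbr hκμ hκN hne hS hC.neg (fun z => conj_ofReal _)
      (fun z => by rw [map_neg, conj_ofReal]) hSb hCb.neg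
      (fun z => by rw [neg_sq]; exact_mod_cast Real.sin_sq_add_cos_sq _)
      (fun z hz => (hSw z hz).congr (by ring) (by ring))
      (fun z hz => (hCw z hz).neg.congr (by ring) (by ring)) (by simpa using hle)

theorem mixed (h : Poinc μ f p) {s₁ s₂ : ℂ → ℂ} (h₁ : ContDiff ℝ ∞ s₁) (h₂ : ContDiff ℝ ∞ s₂)
    (hr : ∀ z, conj (s₁ z) = s₁ z) : ∃ c : ℝ,
    μ * ∫ z in Ds, ‖p z * (s₁ z - c + (1 - z * conj z) * s₂ z)‖ ^ 2 ≤
      4 * ∫ z in Ds, ‖dz s₁ z + ((1 - z * conj z) * dz s₂ z - conj z * s₂ z)‖ ^ 2 := by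
  set a₀ : ℂ → ℂ := fun z => s₁ z + (1 - z * conj z) * ((s₂ z + conj (s₂ z)) / 2) with ha₀
  set b : ℂ → ℂ := fun z => I * (conj (s₂ z) - s₂ z) / 2 with hb
  have ha₀s : ContDiff ℝ ∞ a₀ := by rw [ha₀]; fun_prop
  have hbs : ContDiff ℝ ∞ b := by rw [hb]; fun_prop
  have hbr : ∀ z, conj (b z) = b z := fun z => by simp [hb, conj_ofNat]; ring
  set c := (∫ z in Ds, ‖p z‖ ^ 2 * (a₀ z).re) / ∫ z in Ds, ‖p z‖ ^ 2 with hc
  set a : ℂ → ℂ := fun z => a₀ z - c with ha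
  have has : ContDiff ℝ ∞ a := ha₀s.sub contDiff_const
  have har : ∀ z, conj (a z) = a z := fun z => by simp [ha, ha₀, hr, conj_ofNat]; ring
  set B : ℂ → ℂ := fun w => (1 - w * conj w) * b w with hB
  have hBs : ContDiff ℝ ∞ B := by rw [hB]; fun_prop
  have hBr : ∀ z, conj (B z) = B z := fun z => by simp [hB, hbr, mul_comm]
  have hP := h.P a (has.contDiffOn.of_le (by simp)) (fun z _ => har z) (Bd.of_contDiff has)
    (Bd.of_contDiff (contDiff_dz has)).hw (by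
      have : (fun z => ‖p z‖ ^ 2 * (a z).re) = fun z => ‖p z‖ ^ 2 * (a₀ z).re - c * ‖p z‖ ^ 2 := by
        funext z; simp [ha]; ring
      rw [this, integral_sub (h.int_weight (Bd.of_contDiff ha₀s)) (h.p_hw.sq.const_mul _),
        integral_const_mul, hc, div_mul_cancel₀ _ h.p_pos.ne', sub_self])
  have hF := h.filonov hbs hbr
  have e1 : ∀ z, s₁ z - c + (1 - z * conj z) * s₂ z = a z + I * B z := fun z => by
    simp only [ha, ha₀, hB, hb]
    linear_combination (-(1 - z * conj z) * (conj (s₂ z) - s₂ z) / 2) * I_mul_I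
  have e2 : ∀ z, dz s₁ z + ((1 - z * conj z) * dz s₂ z - conj z * s₂ z) = dz a z + I * dz B z := by
    intro z
    rw [← ((has.hasW z).add ((hBs.hasW z).const_mul I)).dz_eq, ← funext e1,
      (((h₁.hasW z).sub (HasW.const _ z)).add (hasW_van (h₂.hasW z))).dz_eq, sub_zero]
  have hda := contDiff_dz has
  have hZ := ibp_b (F := fun z => b z * dz a z)
    (b := fun z => dzb b z * dz a z + b z * dzb (dz a) z)
    ((hbs.mul hda).contDiffOn.of_le (by simp)) (fun z _ => ⟨_, (hbs.hasW z).mul (hda.hasW z)⟩)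
    (Bd.of_contDiff (((contDiff_dzb hbs).mul hda).add (hbs.mul (contDiff_dzb hda)))).hw.l1
    (Bd.of_contDiff (hbs.mul hda)).hw.div
  have hZi : L1 fun z => -I * (conj (dz B z) * dz a z + B z * dzb (dz a) z) :=
    (Bd.of_contDiff (by have := contDiff_dz hBs; have := contDiff_dzb hda; fun_prop)).hw.l1
  have hZ' : ∫ z in Ds, -I * (conj (dz B z) * dz a z + B z * dzb (dz a) z) = 0 := by
    rw [integral_const_mul, mul_eq_zero]; right
    rw [← hZ]
    congr 1; funext z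
    rw [← dzb_eq_conj_dz (hBs.differentiable (by simp) z) (Eventually.of_forall hBr),
      (hasW_van (hbs.hasW z)).dzb_eq]
    simp only [hB]; ring
  have i1 := (h.p_hw.mul_bd (Bd.of_contDiff has)).sq
  have i2 := (h.p_hw.mul_bd (Bd.of_contDiff hBs)).sq
  have i3 := (Bd.of_contDiff hda).hw.sq
  have i4 := (Bd.of_contDiff (contDiff_dz hBs)).hw.sq
  refine ⟨c, ?_⟩
  simp only [e1, e2]
  have k1 : ∫ z in Ds, ‖p z * (a z + I * B z)‖ ^ 2 =
      (∫ z in Ds, ‖p z * a z‖ ^ 2) + ∫ z in Ds, ‖p z * B z‖ ^ 2 := by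
    rw [← integral_add i1 i2]
    congr 1; funext z
    apply ofReal_injective
    push_cast
    simp only [nsq, map_add, map_mul, har, hBr, conj_I]
    linear_combination (-(p z * conj (p z) * B z ^ 2)) * I_mul_I
  have i5 := (Bd.of_contDiff (hda.add ((contDiff_const (c := I)).mul (contDiff_dz hBs)))).hw.sq
  have k2 := ((((IL.of i5 1).add (IL.of i3 (-1))).add (IL.of i4 (-1))).add
    (IL.ofZ hZi hZ' (-2))).zero fun z _ => by
      apply ofReal_injective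
      push_cast
      have := conj_dzb_dz (z := z) (has.contDiffAt.of_le (by norm_cast))
        (Eventually.of_forall har)
      simp only [nsq, re_eq_add_conj, map_add, map_mul, map_neg, hBr, conj_I, conj_conj, this]
      linear_combination (-(dz B z * conj (dz B z))) * I_mul_I
  rw [k1]
  linarith

/-- the boundary condition of a tangential form, in weak form -/
def BC (Y T : ℂ → ℂ) : Prop :=
  ∀ s₁ s₂ : ℂ → ℂ, ContDiff ℝ ∞ s₁ → ContDiff ℝ ∞ s₂ → (∀ z, conj (s₁ z) = s₁ z) →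
    ∫ z in Ds, (Y z * conj (dz s₁ z + ((1 - z * conj z) * dz s₂ z - conj z * s₂ z)) +
      T z * conj (s₁ z + (1 - z * conj z) * s₂ z)).re = 0

/-- the inequality for tangential forms -/
theorem vector_ineq (h : Poinc μ f p) {Y S : ℂ → ℂ} (hY : HW Y) (hS : HW S)
    (hBC : BC Y fun z => p z * S z) :
    μ * ∫ z in Ds, ‖Y z‖ ^ 2 ≤ 4 * ∫ z in Ds, ‖S z‖ ^ 2 := by
  have hμ := h.mu_pos
  refine le_of_forall_pos_le_add fun ε hε => ?_
  obtain ⟨q, hq, hqε⟩ := exists_poly_L2 hY (div_pos hε hμ)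
  obtain ⟨s₁, s₂, h₁, h₂, hr, e⟩ := hq.decomp_b
  obtain ⟨c, hc⟩ := h.mixed h₁ h₂ hr
  have hB := hBC (fun z => s₁ z - c) s₂ (h₁.sub contDiff_const) h₂ (fun z => by simp [hr])
  have e' : ∀ z, dz (fun z => s₁ z - c) z = dz s₁ z := fun z => by
    rw [((h₁.hasW z).sub (HasW.const _ z)).dz_eq, sub_zero]
  simp only [e', ← e] at hB hc
  have hqb := Bd.of_continuous hq.continuous
  have hsb : Bd fun z => s₁ z - c + (1 - z * conj z) * s₂ z := Bd.of_contDiff (by fun_prop)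
  have i1 := (hY.sub hqb.hw).sq
  have i2 := (h.p_hw.mul_bd hsb).sq
  have i3 := hqb.hw.sq
  have i4 := (((hY.mul_bd hqb.cj).l1).add ((h.p_hw.mul hS).mul_bd hsb.cj)).re
  have key := ((((((IL.of hS.sq 4).add (IL.of i1 μ)).add (IL.of i2 (μ ^ 2 / 4))).add
    (IL.of i3 (-μ))).add (IL.of i4 (2 * μ))).add (IL.of hY.sq (-μ))).nonneg fun z _ => by
      generalize s₁ z - c + (1 - z * conj z) * s₂ z = s
      refine le_of_le_of_eq (sq_nonneg ‖2 * S z + μ / 2 * (conj (p z) * s)‖) ?_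
      apply ofReal_injective
      push_cast
      simp only [nsq, re_eq_add_conj, map_add, map_sub, map_mul, map_div₀, conj_conj, conj_ofReal,
        conj_ofNat]
      ring
  rw [hB] at key
  have k1 : μ * (∫ z in Ds, ‖Y z - q z‖ ^ 2) ≤ ε := by
    rw [le_div_iff₀ hμ] at hqε; linarith
  nlinarith [mul_le_mul_of_nonneg_left hc hμ.le]

end Poinc

end Vale.Agent.P071
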