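import Mathlib

/-!
Wirtinger calculus for real-differentiable maps of the complex plane, and integration by parts.
-/

open MeasureTheory Complex Set Metric Filter Topology
open scoped ComplexConjugate ContDiff

namespace Vale.Agent.P071

/-- the real-linear map `h ↦ a h + b (conj h)` -/
noncomputable def wl (a b : ℂ) : ℂ →L[ℝ] ℂ :=
  a • (ContinuousLinearMap.id ℝ ℂ) + b • (conjCLE : ℂ →L[ℝ] ℂ)

@[simp] theorem wl_apply (a b h : ℂ) : wl a b h = a * h + b * conj h := by simp [wl]

/-- `F` is real-differentiable at `z` with Wirtinger derivatives `a` and `b` -/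
def HasW (F : ℂ → ℂ) (a b z : ℂ) : Prop := HasFDerivAt F (wl a b) z

/-- the Wirtinger derivative in `z` -/
noncomputable def dz (F : ℂ → ℂ) (z : ℂ) : ℂ := (fderiv ℝ F z 1 - I * fderiv ℝ F z I) / 2

/-- the Wirtinger derivative in `conj z` -/
noncomputable def dzb (F : ℂ → ℂ) (z : ℂ) : ℂ := (fderiv ℝ F z 1 + I * fderiv ℝ F z I) / 2

theorem wl_eq (L : ℂ →L[ℝ] ℂ) : wl ((L 1 - I * L I) / 2) ((L 1 + I * L I) / 2) = L := by
  ext1 h
  have e : h = h.re • (1 : ℂ) + h.im • I := by simp
  rw [wl_apply]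
  conv_rhs => rw [e, map_add, map_smul, map_smul]
  conv_lhs => rw [← re_add_im h]
  simp only [map_add, map_mul, conj_ofReal, conj_I, real_smul]
  linear_combination (-(h.im : ℂ) * L I) * I_mul_I

namespace HasW
variable {F H : ℂ → ℂ} {a b c d z : ℂ}

theorem differentiableAt (h : HasW F a b z) : DifferentiableAt ℝ F z :=
  HasFDerivAt.differentiableAt h

theorem continuousAt (h : HasW F a b z) : ContinuousAt F z := HasFDerivAt.continuousAt h

theorem dz_eq (h : HasW F a b z) : dz F z = a := by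
  rw [dz, HasFDerivAt.fderiv h]; simp only [wl_apply, map_one, conj_I]
  linear_combination (b - a) / 2 * I_mul_I

theorem dzb_eq (h : HasW F a b z) : dzb F z = b := by
  rw [dzb, HasFDerivAt.fderiv h]; simp only [wl_apply, map_one, conj_I]
  linear_combination (a - b) / 2 * I_mul_I

theorem congr (h : HasW F a b z) (ha : a = c) (hb : b = d) : HasW F c d z := ha ▸ hb ▸ h

theorem congr_of_eventuallyEq (h : HasW F a b z) (hH : H =ᶠ[𝓝 z] F) : HasW H a b z :=
  HasFDerivAt.congr_of_eventuallyEq h hH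

theorem const (c z : ℂ) : HasW (fun _ => c) 0 0 z :=
  (hasFDerivAt_const c z).congr_fderiv (by ext1; simp)

theorem id' (z : ℂ) : HasW (fun w => w) 1 0 z :=
  (hasFDerivAt_id z).congr_fderiv (by ext1; simp)

theorem add (h : HasW F a b z) (h' : HasW H c d z) : HasW (fun w => F w + H w) (a + c) (b + d) z :=
  (HasFDerivAt.add h h').congr_fderiv (by ext1; simp; ring)

theorem sub (h : HasW F a b z) (h' : HasW H c d z) : HasW (fun w => F w - H w) (a - c) (b - d) z :=
  (HasFDerivAt.sub h h').congr_fderiv (by ext1; simp; ring)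

theorem neg (h : HasW F a b z) : HasW (fun w => -F w) (-a) (-b) z :=
  (HasFDerivAt.neg h).congr_fderiv (by ext1; simp; ring)

theorem mul (h : HasW F a b z) (h' : HasW H c d z) :
    HasW (fun w => F w * H w) (a * H z + F z * c) (b * H z + F z * d) z :=
  (HasFDerivAt.mul h h').congr_fderiv (by ext1; simp; ring)

theorem const_mul (h : HasW F a b z) (c : ℂ) : HasW (fun w => c * F w) (c * a) (c * b) z :=
  ((const c z).mul h).congr (by ring) (by ring)

theorem cj (h : HasW F a b z) : HasW (fun w => conj (F w)) (conj b) (conj a) z :=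
  ((conjCLE : ℂ →L[ℝ] ℂ).hasFDerivAt.comp z h).congr_fderiv (by ext1; simp; ring)

theorem conj' (z : ℂ) : HasW (fun w => conj w) 0 1 z := ((id' z).cj).congr (by simp) (by simp)

/-- holomorphic outer function -/
theorem hol_comp {g : ℂ → ℂ} {g' : ℂ} (h : HasW F a b z) (hg : HasDerivAt g g' (F z)) :
    HasW (fun w => g (F w)) (g' * a) (g' * b) z :=
  ((hg.hasFDerivAt.restrictScalars ℝ).comp z h).congr_fderiv (by ext1; simp; ring)

theorem of_hasDerivAt {g : ℂ → ℂ} {g' : ℂ} (hg : HasDerivAt g g' z) : HasW g g' 0 z :=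
  ((id' z).hol_comp hg).congr (by simp) (by simp)

/-- holomorphic inner function -/
theorem comp_hol {f : ℂ → ℂ} {f' : ℂ} (h : HasW F a b (f z)) (hf : HasDerivAt f f' z) :
    HasW (fun w => F (f w)) (a * f') (b * conj f') z :=
  (HasFDerivAt.comp z h (hf.hasFDerivAt.restrictScalars ℝ)).congr_fderiv (by ext1; simp; ring)

theorem pow (h : HasW F a b z) (n : ℕ) :
    HasW (fun w => F w ^ n) (n * F z ^ (n - 1) * a) (n * F z ^ (n - 1) * b) z :=
  h.hol_comp (hasDerivAt_pow n (F z))

theorem inv (h : HasW F a b z) (h0 : F z ≠ 0) :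
    HasW (fun w => (F w)⁻¹) (-(F z ^ 2)⁻¹ * a) (-(F z ^ 2)⁻¹ * b) z :=
  h.hol_comp (hasDerivAt_inv h0)

end HasW

theorem _root_.DifferentiableAt.hasW {F : ℂ → ℂ} {z : ℂ} (h : DifferentiableAt ℝ F z) :
    HasW F (dz F z) (dzb F z) z := by
  rw [HasW, dz, dzb, wl_eq]; exact h.hasFDerivAt

theorem contDiffOn_fderiv_apply {F : ℂ → ℂ} {U : Set ℂ} (hU : IsOpen U) {m n : WithTop ℕ∞}
    (h : ContDiffOn ℝ n F U) (hmn : m + 1 ≤ n) (v : ℂ) :
    ContDiffOn ℝ m (fun z => fderiv ℝ F z v) U :=
  (h.fderiv_of_isOpen hU hmn).clm_apply contDiffOn_const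

theorem contDiffOn_dz {F : ℂ → ℂ} {U : Set ℂ} (hU : IsOpen U) {m n : WithTop ℕ∞}
    (h : ContDiffOn ℝ n F U) (hmn : m + 1 ≤ n) : ContDiffOn ℝ m (dz F) U :=
  ((contDiffOn_fderiv_apply hU h hmn 1).sub
    (contDiffOn_const.mul (contDiffOn_fderiv_apply hU h hmn I))).div_const 2

theorem contDiffOn_dzb {F : ℂ → ℂ} {U : Set ℂ} (hU : IsOpen U) {m n : WithTop ℕ∞}
    (h : ContDiffOn ℝ n F U) (hmn : m + 1 ≤ n) : ContDiffOn ℝ m (dzb F) U :=
  ((contDiffOn_fderiv_apply hU h hmn 1).add
    (contDiffOn_const.mul (contDiffOn_fderiv_apply hU h hmn I))).div_const 2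

theorem contDiff_dz {F : ℂ → ℂ} (h : ContDiff ℝ ∞ F) : ContDiff ℝ ∞ (dz F) :=
  contDiffOn_univ.1 (contDiffOn_dz isOpen_univ h.contDiffOn (by simp))

theorem contDiff_dzb {F : ℂ → ℂ} (h : ContDiff ℝ ∞ F) : ContDiff ℝ ∞ (dzb F) :=
  contDiffOn_univ.1 (contDiffOn_dzb isOpen_univ h.contDiffOn (by simp))

theorem _root_.ContDiff.hasW {F : ℂ → ℂ} (h : ContDiff ℝ ∞ F) (z : ℂ) :
    HasW F (dz F z) (dzb F z) z := (h.differentiable (by simp) z).hasW

theorem dzb_dz_comm {F : ℂ → ℂ} {z : ℂ} (h : ContDiffAt ℝ 2 F z) :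
    dzb (dz F) z = dz (dzb F) z := by
  have h1 : DifferentiableAt ℝ (fderiv ℝ F) z :=
    (h.fderiv_right (m := 1) (by norm_num)).differentiableAt (by simp)
  have hs : IsSymmSndFDerivAt ℝ F z := h.isSymmSndFDerivAt (by simp)
  have h2 : ∀ v, HasW (fun w => fderiv ℝ F w v)
      ((fderiv ℝ (fderiv ℝ F) z 1 v - I * fderiv ℝ (fderiv ℝ F) z I v) / 2)
      ((fderiv ℝ (fderiv ℝ F) z 1 v + I * fderiv ℝ (fderiv ℝ F) z I v) / 2) z := by
    intro v
    have := h1.hasFDerivAt.clm_apply (hasFDerivAt_const v z)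
    have e := wl_eq ((fderiv ℝ (fderiv ℝ F) z).flip v)
    simp only [ContinuousLinearMap.flip_apply] at e
    rw [HasW, e]
    exact this.congr_fderiv (by ext1; simp)
  have e1 : dz F = fun w => (1 / 2 : ℂ) * (fderiv ℝ F w 1 - I * fderiv ℝ F w I) := by
    funext w; rw [dz]; ring
  have e2 : dzb F = fun w => (1 / 2 : ℂ) * (fderiv ℝ F w 1 + I * fderiv ℝ F w I) := by
    funext w; rw [dzb]; ring
  rw [e1, e2, (((h2 1).sub ((h2 I).const_mul I)).const_mul _).dzb_eq,
    (((h2 1).add ((h2 I).const_mul I)).const_mul _).dz_eq, hs 1 I]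
  ring

theorem integrable_mul_of_compact {U K : Set ℂ} (hK : IsCompact K) (hKU : K ⊆ U) {F φ : ℂ → ℂ}
    (hF : ContinuousOn F U) (hφ : Continuous φ) (h0 : ∀ z ∉ K, φ z = 0) :
    Integrable (fun z => F z * φ z) :=
  (((hF.mono hKU).mul hφ.continuousOn).integrableOn_compact hK).integrable_of_forall_notMem_eq_zero
    fun z hz => by simp [h0 z hz]

/-- integration by parts against a compactly supported function -/
theorem ibp_compact {U : Set ℂ} {F a b φ a' b' : ℂ → ℂ}
    (hF : ∀ z ∈ U, HasW F (a z) (b z) z) (ha : ContinuousOn a U) (hb : ContinuousOn b U)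
    (hφ : ∀ z, HasW φ (a' z) (b' z) z) (ha' : Continuous a') (hb' : Continuous b')
    (hc : HasCompactSupport φ) (hs : tsupport φ ⊆ U) :
    (∫ z in U, (F z * a' z + a z * φ z) = 0) ∧ (∫ z in U, (F z * b' z + b z * φ z) = 0) := by
  have hFc : ContinuousOn F U := fun z hz => (hF z hz).continuousAt.continuousWithinAt
  have hφc : Continuous φ := continuous_iff_continuousAt.2 fun z => (hφ z).continuousAt
  have h0 : ∀ z ∉ tsupport φ, φ z = 0 := fun z hz => image_eq_zero_of_notMem_tsupport hz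
  have hab : ∀ z ∉ tsupport φ, a' z = 0 ∧ b' z = 0 := by
    intro z hz
    have : HasW φ 0 0 z := (HasW.const 0 z).congr_of_eventuallyEq
      (notMem_tsupport_iff_eventuallyEq.1 hz)
    exact ⟨(hφ z).dz_eq.symm.trans this.dz_eq, (hφ z).dzb_eq.symm.trans this.dzb_eq⟩
  have i1 := integrable_mul_of_compact hc hs hFc ha' fun z hz => (hab z hz).1
  have i2 := integrable_mul_of_compact hc hs hFc hb' fun z hz => (hab z hz).2
  have i3 := integrable_mul_of_compact hc hs ha hφc h0
  have i4 := integrable_mul_of_compact hc hs hb hφc h0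
  have i5 := integrable_mul_of_compact hc hs hFc hφc h0
  have key : ∀ v : ℂ, v * (∫ z, (F z * a' z + a z * φ z)) +
      conj v * (∫ z, (F z * b' z + b z * φ z)) = 0 := by
    intro v
    have h := integral_bilinear_hasFDerivAt_right_eq_neg_left_of_integrable (μ := volume)
      (B := ContinuousLinearMap.mul ℝ ℂ) (f := F) (f' := fun z => wl (a z) (b z)) (g := φ)
      (g' := fun z => wl (a' z) (b' z)) (v := v)
      (((i3.const_mul v).add (i4.const_mul (conj v))).congr
        (Eventually.of_forall fun z => by simp; ring))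
      (((i1.const_mul v).add (i2.const_mul (conj v))).congr
        (Eventually.of_forall fun z => by simp; ring))
      (by simpa using i5) (fun z hz => hF z (hs hz)) (fun z _ => hφ z)
    simp only [ContinuousLinearMap.mul_apply', wl_apply] at h
    have e1 : (fun z => F z * (a' z * v + b' z * conj v)) =
        fun z => v * (F z * a' z) + conj v * (F z * b' z) := by funext z; ring
    have e2 : (fun z => (a z * v + b z * conj v) * φ z) =
        fun z => v * (a z * φ z) + conj v * (b z * φ z) := by funext z; ring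
    rw [e1, e2, integral_add (i1.const_mul _) (i2.const_mul _),
      integral_add (i3.const_mul _) (i4.const_mul _), integral_const_mul, integral_const_mul,
      integral_const_mul, integral_const_mul] at h
    rw [integral_add i1 i3, integral_add i2 i4]
    linear_combination h
  have k1 := key 1
  have k2 := key I
  simp only [map_one, one_mul, conj_I] at k1 k2
  rw [setIntegral_eq_integral_of_forall_compl_eq_zero, setIntegral_eq_integral_of_forall_compl_eq_zero]
  · generalize (∫ z, (F z * a' z + a z * φ z)) = X at *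
    generalize (∫ z, (F z * b' z + b z * φ z)) = Y at *
    constructor
    · linear_combination k1 / 2 - I / 2 * k2 + (X - Y) / 2 * I_mul_I
    · linear_combination k1 / 2 + I / 2 * k2 - (X - Y) / 2 * I_mul_I
  · intro z hz
    have hz' : z ∉ tsupport φ := fun h => hz (hs h)
    simp [h0 z hz', (hab z hz').2]
  · intro z hz
    have hz' : z ∉ tsupport φ := fun h => hz (hs h)
    simp [h0 z hz', (hab z hz').1]

end Vale.Agent.P071
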